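import Vale.Agent.P267.H759.Osc
import Vale.Agent.P267.H877.Iface
import Vale.Agent.P267.H661.Gf
import Vale.Agent.P268.Hol

/-!
# P267 / H759: the root gap in the language of `H877/Iface.lean`
-/

open Set Filter Topology Metric
open scoped Manifold ContDiff ComplexOrder

set_option linter.all false
set_option maxSynthPendingDepth 3

noncomputable section

namespace Vale.Agent.P267.H759

open Vale.Agent.P267.FL Vale.Agent.P267.XT Vale.Agent.P272.K Vale.Agent.P272.K.N Vale.Agent.P272.K.LIN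

/-- The Levi matrix of the real part of a holomorphic function vanishes. -/
theorem lev_re_hol {n : ℕ} {k : Cm n → ℂ} {z₀ : Cm n} (hk : AnalyticAt ℂ k z₀) :
    lev (fderiv ℝ (fderiv ℝ fun z => (k z).re) z₀) = 0 := by
  let Λ : (Cm n →L[ℂ] ℂ) →L[ℝ] (Cm n →L[ℝ] ℝ) :=
    (ContinuousLinearMap.compL ℝ (Cm n) ℂ ℝ Complex.reCLM).comp
      (ContinuousLinearMap.restrictScalarsL ℂ (Cm n) ℂ ℝ ℝ)
  have hΛ : ∀ (L : Cm n →L[ℂ] ℂ) (w : Cm n), Λ L w = (L w).re := fun L w => rfl
  have h1 : (fderiv ℝ fun z => (k z).re) =ᶠ[𝓝 z₀] fun z => Λ (fderiv ℂ k z) := by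
    filter_upwards [hk.eventually_analyticAt] with z hz
    have h2 : HasFDerivAt k ((fderiv ℂ k z).restrictScalars ℝ) z :=
      hz.differentiableAt.hasFDerivAt.restrictScalars ℝ
    exact (Complex.reCLM.hasFDerivAt.comp z h2).fderiv
  have h3 : HasFDerivAt (fderiv ℂ k) ((fderiv ℂ (fderiv ℂ k) z₀).restrictScalars ℝ) z₀ :=
    hk.fderiv.differentiableAt.hasFDerivAt.restrictScalars ℝ
  have h4 : fderiv ℝ (fderiv ℝ fun z => (k z).re) z₀
      = Λ.comp ((fderiv ℂ (fderiv ℂ k) z₀).restrictScalars ℝ) := by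
    rw [h1.fderiv_eq]
    exact (Λ.hasFDerivAt.comp z₀ h3).fderiv
  have h5 : ∀ v w : Cm n, fderiv ℝ (fderiv ℝ fun z => (k z).re) z₀ v w
      = (fderiv ℂ (fderiv ℂ k) z₀ v w).re := by
    intro v w
    rw [h4]
    rfl
  have hI : ∀ j : Fin n, (Pi.single j Complex.I : Cm n) = Complex.I • (Pi.single j 1 : Cm n) := by
    intro j
    rw [← Pi.single_smul, smul_eq_mul, mul_one]
  ext i j
  rw [lev_apply, h5, h5, h5, h5, hI, hI]
  simp only [map_smul, ContinuousLinearMap.smul_apply, smul_eq_mul, Matrix.zero_apply]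
  have e1 : (Complex.I * (Complex.I * ((fderiv ℂ (fderiv ℂ k) z₀) (Pi.single i 1))
      (Pi.single j 1))).re = - (((fderiv ℂ (fderiv ℂ k) z₀) (Pi.single i 1)) (Pi.single j 1)).re := by
    rw [← mul_assoc, Complex.I_mul_I, neg_one_mul, Complex.neg_re]
  rw [e1]
  simp

variable {M : Type} [TopologicalSpace M] [ChartedSpace C2 M] [IsManifold 𝓘(ℂ, C2) ω M]

/-- `f + Re g` has no local maximum. -/
theorem sh_f (D : XTData M) : SH C2 D.f := by
  intro p g hg hmax
  set e := chartAt C2 p with he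
  have hx := mem_chart_source C2 p
  have hfck : CkFn C2 2 D.f := by
    have h1 : CkFn C2 ∞ (fun x => (D.f x : ℂ)) := Vale.Agent.P267.H661.reg0_iff.1 D.f_smooth
    have h2 := Vale.Agent.P267.H661.reF_ck h1
    exact Vale.Agent.P267.H661.ckFn_two' h2
  -- the function in the chart
  have hsymm : Tendsto e.symm (𝓝 (e p)) (𝓝 p) := by
    have := e.continuousAt_symm (e.map_source hx)
    rwa [ContinuousAt, e.left_inv hx] at this
  -- holomorphic near `e p`
  have hk : AnalyticAt ℂ (fun z => g (e.symm z)) (e p) := by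
    have h1 : ∀ᶠ z in 𝓝 (e p), DifferentiableAt ℂ (fun z => g (e.symm z)) z := by
      filter_upwards [hsymm.eventually hg, e.open_target.mem_nhds (e.map_source hx)] with z hz hzt
      have h2 : MDifferentiableAt 𝓘(ℂ, C2) 𝓘(ℂ, C2) e.symm z :=
        mdifferentiableAt_atlas_symm (chart_mem_atlas C2 p) hzt
      exact (MDifferentiableAt.comp z hz h2).differentiableAt
    obtain ⟨U, hU, hUo, hpU⟩ := _root_.mem_nhds_iff.1 h1
    exact Vale.Agent.P268.analyticAt_of_differentiableOn hUo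
      (fun z hz => (hU hz).differentiableWithinAt) hpU
  set F : C2 → ℝ := fun z => D.f (e.symm z) with hF
  set G : C2 → ℝ := fun z => (g (e.symm z)).re with hG
  have hFc : ContDiffAt ℝ 2 F (e p) := hfck e (chart_mem_atlas _ p) p hx
  have hGc : ContDiffAt ℝ 2 G (e p) := by
    have h1 : ContDiffAt ℂ 2 (fun z => g (e.symm z)) (e p) := hk.contDiffAt
    exact Complex.reCLM.contDiff.contDiffAt.comp _ (h1.restrict_scalars ℝ)
  have hloc : IsLocalMax (fun z => F z + G z) (e p) := by
    have := hsymm.eventually hmax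
    filter_upwards [this] with z hz
    simp only [hF, hG, e.left_inv hx]
    exact hz
  have hD2 : fderiv ℝ (fderiv ℝ fun z => F z + G z) (e p)
      = fderiv ℝ (fderiv ℝ F) (e p) + fderiv ℝ (fderiv ℝ G) (e p) := by
    have h1 : (fderiv ℝ fun z => F z + G z) =ᶠ[𝓝 (e p)] fun z => fderiv ℝ F z + fderiv ℝ G z := by
      filter_upwards [hFc.eventually (by simp), hGc.eventually (by simp)] with z h1 h2
      exact fderiv_fun_add (h1.differentiableAt (by norm_num)) (h2.differentiableAt (by norm_num))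
    rw [h1.fderiv_eq]
    exact fderiv_fun_add
      ((hFc.fderiv_right (m := 1) (by norm_num)).differentiableAt (by norm_num))
      ((hGc.fderiv_right (m := 1) (by norm_num)).differentiableAt (by norm_num))
  have hpd := D.herm.posDef p
  have key := MP.op_nonpos_of_max (Vale.Agent.P267.H661.trL (D.h p)⁻¹) (fun ξ => by
      by_cases hξ : ξ = 0
      · rw [hξ]
        have : ((0 : C2 →L[ℝ] ℝ).smulRight (0 : C2 →L[ℝ] ℝ)) = 0 := by ext; simp
        rw [this, map_zero]
      · rw [Vale.Agent.P267.H661.trL_apply]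
        exact (trace_inv_lev_pos hpd hξ).le) 0 hloc (hFc.add hGc)
  rw [hD2, map_add, Vale.Agent.P267.H661.trL_apply, Vale.Agent.P267.H661.trL_apply,
    lev_re_hol hk] at key
  simp only [Matrix.mul_zero, Matrix.trace_zero, Complex.zero_re, add_zero, zero_apply] at key
  have hlap := D.lap_f p
  have h2 : ddb (fun y => (D.f y : ℂ)) p = lev (fderiv ℝ (fderiv ℝ F) (e p)) := by
    have h3 := Vale.Agent.P267.H661.ddb_cx hfck p
    have h4 : cHess F (e p) = lev (fderiv ℝ (fderiv ℝ F) (e p)) :=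
      cHess_eq_lev (diffble2 hFc)
    rw [← h4]
    exact h3
  rw [trh, h2] at hlap
  rw [hlap, Complex.ofReal_re] at key
  linarith [D.c_pos]

/-- `∂̄`-closed smooth functions are holomorphic in the sense of Mathlib. -/
theorem mdiff_of_dbar {v : M → ℂ} (hv : Reg0 ∞ 0 v) (hd : ∀ x i, dbar0 0 v x i = 0) :
    MDifferentiable 𝓘(ℂ, C2) 𝓘(ℂ, ℂ) v := by
  haveI : IsManifold 𝓘(ℂ, C2) 1 M := IsManifold.of_le (n := ω) le_top
  intro x
  set e := chartAt C2 x with he
  have hx := mem_chart_source C2 x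
  have hck : CkFn C2 ∞ v := Vale.Agent.P267.H661.reg0_iff.1 hv
  have h1 : DifferentiableAt ℝ (fun z => v (e.symm z)) (e x) :=
    (hck e (chart_mem_atlas _ x) x hx).differentiableAt (by simp)
  have h2 : DifferentiableAt ℂ (fun z => v (e.symm z)) (e x) := by
    rw [differentiableAt_complex_iff h1]
    intro j
    have := hd x j
    rw [dbar0, Vale.Agent.P267.H661.loc0_zero'] at this
    exact this
  have h3 : MDifferentiableAt 𝓘(ℂ, C2) 𝓘(ℂ, ℂ) ((fun z => v (e.symm z)) ∘ e) x :=
    h2.mdifferentiableAt.comp x (mdifferentiableAt_atlas (chart_mem_atlas C2 x) hx)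
  refine h3.congr_of_eventuallyEq ?_
  filter_upwards [e.open_source.mem_nhds hx] with y hy
  simp only [Function.comp_apply, e.left_inv hy]

/-- A homeomorphism which is the identity in the preferred charts is holomorphic. -/
theorem mdiff_of_chart_eq {g : M → M} (hg : Continuous g)
    (h : ∀ x, (fun y => chartAt C2 (g x) (g y)) =ᶠ[𝓝 x] fun y => chartAt C2 x y) :
    MDifferentiable 𝓘(ℂ, C2) 𝓘(ℂ, C2) g := by
  haveI : IsManifold 𝓘(ℂ, C2) 1 M := IsManifold.of_le (n := ω) le_top
  intro x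
  have hx := mem_chart_source C2 x
  have h1 : MDifferentiableAt 𝓘(ℂ, C2) 𝓘(ℂ, C2) (chartAt C2 x) x :=
    mdifferentiableAt_atlas (chart_mem_atlas C2 x) hx
  have h0 : chartAt C2 x x = chartAt C2 (g x) (g x) := (h x).self_of_nhds.symm
  have h2 : MDifferentiableAt 𝓘(ℂ, C2) 𝓘(ℂ, C2) (chartAt C2 (g x)).symm (chartAt C2 x x) := by
    rw [h0]
    exact mdifferentiableAt_atlas_symm (chart_mem_atlas C2 (g x))
      ((chartAt C2 (g x)).map_source (mem_chart_source C2 (g x)))
  have h3 := h2.comp x h1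
  refine h3.congr_of_eventuallyEq ?_
  have h4 : ∀ᶠ y in 𝓝 x, g y ∈ (chartAt C2 (g x)).source :=
    hg.continuousAt.eventually ((chartAt C2 (g x)).open_source.mem_nhds (mem_chart_source C2 (g x)))
  filter_upwards [h x, h4] with y hy hy2
  rw [Function.comp_apply, ← hy, (chartAt C2 (g x)).left_inv hy2]

/-- the periodic structure of `XTData` -/
def per (D : XTData M) : Per C2 M where
  γ := D.γ
  hγ := mdiff_of_chart_eq D.γ.continuous D.chart_γ
  hγs := by
    refine mdiff_of_chart_eq D.γ.symm.continuous fun x => ?_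
    have h1 := D.chart_γ (D.γ.symm x)
    have h2 : Tendsto D.γ.symm (𝓝 x) (𝓝 (D.γ.symm x)) := D.γ.symm.continuous.continuousAt
    filter_upwards [h2.eventually h1] with y hy
    rw [Homeomorph.apply_symm_apply, Homeomorph.apply_symm_apply] at hy
    exact hy.symm
  K := D.slab 0
  cpt := D.isCompact_slab 0
  cover x := by
    refine ⟨⌊D.f x⌋, D.sh (-⌊D.f x⌋) x, ?_, D.sh_sh_neg _ _⟩
    have h1 := D.mem_slab_floor x
    have h2 := (D.sh_mem_slab (j := ⌊D.f x⌋) (k := -⌊D.f x⌋) (x := x)).2 h1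
    rwa [add_neg_cancel] at h2
  f := D.f
  hf := by
    have h1 : CkFn C2 ∞ (fun x => (D.f x : ℂ)) := Vale.Agent.P267.H661.reg0_iff.1 D.f_smooth
    have h2 := Vale.Agent.P267.H661.reF_ck h1
    exact ckFn_continuous h2
  hfγ := D.f_γ

/-- **The root gap** for `XTData`. -/
theorem rootGap [PreconnectedSpace M] (D : XTData M) : ∃ d', D.RootGap d' := by
  haveI : IsManifold 𝓘(ℂ, C2) 1 M := IsManifold.of_le (n := ω) le_top
  have hSH : SH C2 (per D).f := sh_f D
  obtain ⟨d, hd, hgap⟩ := (per D).root_gap hSH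
  refine ⟨d, hd, ?_, ?_, ?_⟩
  · rintro v hv hdv ⟨A, hA⟩
    have h1 := hgap.liouville_const hd hSH (mdiff_of_dbar hv hdv) (N := d) (C := A) hd.le (by
      intro x
      refine (hA x).trans (le_of_eq ?_)
      congr 2
      change d * |D.f x| = max (-d * D.f x) (d * D.f x)
      rw [abs_eq_max_neg, mul_max_of_nonneg _ _ hd.le, max_comm]
      congr 1
      ring)
    rcases isEmpty_or_nonempty M with hM | ⟨⟨x0⟩⟩
    · exact ⟨0, fun x => (hM.false x).elim⟩
    · exact ⟨v x0, fun x => h1 x x0⟩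
  · rintro v ε hε hεd hv hdv ⟨A, hA⟩ x
    exact congrFun (hgap.liouville_pos (mdiff_of_dbar hv hdv) hε hεd hA) x
  · rintro v ε N hε hεN hv hdv ⟨A, hA⟩ x
    have := (per D).liouville_neg hSH (mdiff_of_dbar hv hdv) hε hεN (C := A) (by
      intro x
      refine (hA x).trans (le_of_eq ?_)
      congr 2
      change max (-(ε * D.f x)) (-(N * D.f x)) = max (-N * D.f x) (-ε * D.f x)
      rw [max_comm, neg_mul, neg_mul])
    exact congrFun this x

end Vale.Agent.P267.H759
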