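import Vale.Agent.P267.H759.NormA

/-!
# P267 / H759: raw geometry of the endgame (LINE X), interface

`NFThm`: the normal form at a crossing, a statement about functions on `ℂ²`.

`RawA M`: the geometry near `Z ∪ inner end`, with unnormalised data at the crossing point `p0` of
`C` and `Z`: local equations `a` of `C` and `b` of `Z`, and the absolute values of `zz` and of the
`2`-form up to positive continuous factors.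
-/

set_option linter.unusedVariables false

open scoped Manifold ContDiff Topology
open Set Filter

noncomputable section

namespace Vale.Agent.P267.H759

open Vale.Agent.P267.FL

/-- **Normal form at a crossing.** -/
def NFThm : Prop :=
  ∀ (U : Set C2) (a b u v : C2 → ℂ) (m μ : ℕ), IsOpen U → (0 : C2) ∈ U → 0 < m →
    DifferentiableOn ℂ a U → DifferentiableOn ℂ b U → DifferentiableOn ℂ u U →
    DifferentiableOn ℂ v U → a 0 = 0 → b 0 = 0 → u 0 ≠ 0 → v 0 ≠ 0 →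
    LinearIndependent ℂ ![fderiv ℂ a 0, fderiv ℂ b 0] →
    ∃ E : OpenPartialHomeomorph C2 C2, (0 : C2) ∈ E.source ∧ E.source ⊆ U ∧ E 0 = 0 ∧
      DifferentiableOn ℂ E E.source ∧ DifferentiableOn ℂ E.symm E.target ∧
      (∀ x ∈ E.source, a x = 0 ↔ E x 0 = 0) ∧ (∀ x ∈ E.source, b x = 0 ↔ E x 1 = 0) ∧
      (∀ x ∈ E.source, u x * a x ^ m * b x ^ (μ * m) = (E x 0 * E x 1 ^ μ) ^ m) ∧
      ∃ H : C2 → ℂ, DifferentiableOn ℂ H E.target ∧ (∀ y ∈ E.target, y 0 = 0 → H y = 1) ∧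
        ∀ x ∈ E.source, v x * b x ^ μ = H (E x) * E x 1 ^ μ * (fderiv ℂ E x).det

/-- Raw geometry of the endgame near `Z ∪ inner end`. -/
structure RawA (M : Type*) [TopologicalSpace M] [ChartedSpace C2 M] where
  f : M → ℝ
  f_cont : Continuous f
  f_proper : ∀ a b, IsCompact (f ⁻¹' Icc a b)
  Z : Set M
  Z_closed : IsClosed Z
  C : Set M
  C_closed : IsClosed C
  C_below : ∃ a, ∀ x ∈ C, a ≤ f x
  -- the norm of the section `α_i`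
  A : M → ℝ
  A_cont : Continuous A
  A_nonneg : ∀ x, 0 ≤ A x
  A_zero : ∀ x, A x = 0 ↔ x ∈ Z
  A_in : ∀ ε > 0, ∃ a, ∀ x, f x < a → A x < ε
  A_out : ∃ b a₀, 0 < a₀ ∧ ∀ x, b < f x → a₀ ≤ A x
  -- the exact holomorphic function
  W : Set M
  W_open : IsOpen W
  Z_W : Z ⊆ W
  W_in : ∃ a, ∀ x, f x < a → x ∈ W
  zz : M → ℂ
  zz_hol : ∀ x ∈ W, MDifferentiableAt 𝓘(ℂ, C2) 𝓘(ℂ, ℂ) zz x
  zz_in : ∀ ε > 0, ∃ a, ∀ x, f x < a → ‖zz x‖ < ε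
  zz_zero : ∀ x ∈ W, zz x = 0 ↔ (x ∈ Z ∨ x ∈ C)
  m : ℕ
  m_pos : 0 < m
  μ : ℕ
  -- the crossing
  p0 : M
  p0_Z : p0 ∈ Z
  p0_C : p0 ∈ C
  cross : ∀ x ∈ Z, x ∈ C → x = p0
  a : M → ℂ
  b : M → ℂ
  a_hol : ∀ᶠ x in 𝓝 p0, MDifferentiableAt 𝓘(ℂ, C2) 𝓘(ℂ, ℂ) a x
  b_hol : ∀ᶠ x in 𝓝 p0, MDifferentiableAt 𝓘(ℂ, C2) 𝓘(ℂ, ℂ) b x
  a_zero : ∀ᶠ x in 𝓝 p0, a x = 0 ↔ x ∈ C
  b_zero : ∀ᶠ x in 𝓝 p0, b x = 0 ↔ x ∈ Z
  indep : LinearIndependent ℂ ![mfderiv 𝓘(ℂ, C2) 𝓘(ℂ, ℂ) a p0, mfderiv 𝓘(ℂ, C2) 𝓘(ℂ, ℂ) b p0]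
  k₁ : M → ℝ
  k₁_cont : ∀ᶠ x in 𝓝 p0, ContinuousAt k₁ x
  k₁_pos : 0 < k₁ p0
  zz_norm : ∀ᶠ x in 𝓝 p0, ‖zz x‖ = k₁ x * (‖a x‖ * ‖b x‖ ^ μ) ^ m
  -- the absolute value of the two-form (in preferred coordinates)
  G : M → ℝ
  G_pos : ∀ x ∈ W, x ∉ Z → 0 < G x
  G_loc : ∀ x ∈ W, ∃ V : Set M, IsOpen V ∧ x ∈ V ∧ ∃ σ : M → ℂ, HolOn 1 σ V ∧
    ∀ y ∈ V, ‖σ y‖ = G y
  k₂ : M → ℝ
  k₂_cont : ∀ᶠ x in 𝓝 p0, ContinuousAt k₂ x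
  k₂_pos : 0 < k₂ p0
  G_norm : ∀ᶠ x in 𝓝 p0, G x * ‖(jac (chartAt C2 p0) x).det‖ = k₂ x * ‖b x‖ ^ μ
  -- connectedness of `Z ∪ inner end`
  conn : ∀ a, ∃ b, ∃ Q : Set M, IsPreconnected Q ∧ Z ∪ {x | f x < b} ⊆ Q ∧ Q ⊆ Z ∪ {x | f x < a}

end Vale.Agent.P267.H759
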