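import Vale.Agent.P267.H759.Conn
import Vale.Agent.P267.H209.Reach
import Vale.Agent.P267.H706.Lim

/-!
# P267 / H759: LINE X, the inner end together with the curves is connected

`conn_cov`: the field `conn` of `RawA` for the union of the curves `C j`, `j ≤ i`.
-/

set_option linter.unusedVariables false

open scoped Manifold ContDiff Topology
open Set Filter
open Vale.Agent.P272.K (Cm)
open Vale.Agent.P267.FL Vale.Agent.P267.H158 Vale.Agent.P267.XT Vale.Agent.P267.LineX

noncomputable section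

namespace Vale.Agent.P267.H759

variable {X : Type} [TopologicalSpace X] [ChartedSpace C2 X] [IsManifold 𝓘(ℂ, C2) ω X]

/-- the field `conn` of `RawA` -/
theorem conn_cov [ConnectedSpace X] {n : ℕ} {O : BlockOut X n} (Ch : Chain O) (i : ℤ) (a : ℝ) :
    ∃ b, ∃ Q : Set (Cov O.B.hh), IsPreconnected Q ∧
      (⋃ j ∈ Iic i, (Ch.C j).image) ∪ {x | O.B.D.f x < b} ⊆ Q ∧
      Q ⊆ (⋃ j ∈ Iic i, (Ch.C j).image) ∪ {x | O.B.D.f x < a} := by
  have h1 : LocallyConnectedSpace X := ChartedSpace.locallyConnectedSpace C2 X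
  have h2 : ConnectedSpace (Cov O.B.hh) := Cov.connectedSpace O.B.prim
  have h3 : LocallyConnectedSpace (Cov O.B.hh) := ChartedSpace.locallyConnectedSpace C2 _
  obtain ⟨x₀⟩ : Nonempty (Cov O.B.hh) := inferInstance
  exact end_conn_union (H706.continuous_f O.B.D) O.B.D.f_proper O.B.D.γ O.B.D.f_γ x₀
    (Ch.reach' i) a

/-- the field `conn` of `RawA` for the zero set of `N (ord.symm i)` -/
theorem conn_cov' [ConnectedSpace X] {n : ℕ} {O : BlockOut X n} (Ch : Chain O) (i : ℤ) (a : ℝ) :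
    ∃ b, ∃ Q : Set (Cov O.B.hh), IsPreconnected Q ∧
      {x | O.N (Ch.ord.symm i) x = 0} ∪ {x | O.B.D.f x < b} ⊆ Q ∧
      Q ⊆ {x | O.N (Ch.ord.symm i) x = 0} ∪ {x | O.B.D.f x < a} := by
  rw [Ch.zero_eq i]
  exact conn_cov Ch i a

end Vale.Agent.P267.H759
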