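import Vale.Agent.P267.H759.In2
import Vale.Agent.P267.H615.Kato

/-!
# P267 / H759: from the leaf theorem to the global spherical shell
-/

set_option linter.unusedVariables false
set_option linter.unusedSectionVars false

open scoped Manifold ContDiff Topology
open Set Filter
open Vale.Agent.P272.K (Cm)

noncomputable section

namespace Vale.Agent.P267.H759

open Vale.Agent.P267.FL

theorem isOpen_pbd (c : ℝ) : IsOpen (pbd c) := by
  have h0 : IsOpen {x : C2 | x ≠ 0} := isOpen_ne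
  have h1 : IsOpen {x : C2 | ‖x 0‖ < c} := isOpen_lt (by fun_prop) (by fun_prop)
  have h2 : IsOpen {x : C2 | ‖x 1‖ < 5} := isOpen_lt (by fun_prop) (by fun_prop)
  exact h0.inter (h1.inter h2)

namespace NormA

variable {M : Type*} [TopologicalSpace M] [T2Space M] [ChartedSpace C2 M]
  [IsManifold 𝓘(ℂ, C2) ω M] {D : NormA M}

namespace Sel

variable (S : D.Sel)

theorem zz_freq {y : M} (hy : y ∈ S.Nin) : ∃ᶠ z in 𝓝 y, D.zz z ≠ 0 := by
  have h0 : ∃ᶠ z in 𝓝 (p0 D), D.zz z ≠ 0 := by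
    intro hcon
    have h2 : ∀ᶠ x in 𝓝 (0 : C2), D.zz (D.E.symm x) = 0 := by
      have h3 : ContinuousAt D.E.symm (0 : C2) := D.E.continuousAt_symm D.E_zero
      exact (h3.eventually hcon).mono fun x hx => not_not.1 hx
    have h4 : ∀ᶠ x in 𝓝 (0 : C2), x ∈ D.E.target := D.E.open_target.mem_nhds D.E_zero
    obtain ⟨e, he, hb⟩ := Metric.eventually_nhds_iff_ball.1 (h2.and h4)
    have h5 : (fun _ => (e / 2 : ℂ)) ∈ Metric.ball (0 : C2) e := by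
      rw [mem_ball_zero_iff, pi_norm_lt_iff he]
      intro i
      rw [norm_div, Complex.norm_real, Real.norm_of_nonneg he.le]
      simp
      linarith
    obtain ⟨h6, h7⟩ := hb _ h5
    rw [D.E_zz _ h7] at h6
    have h8 : (e / 2 : ℂ) ≠ 0 := by
      have : (e : ℂ) ≠ 0 := by exact_mod_cast he.ne'
      exact div_ne_zero this two_ne_zero
    exact (pow_ne_zero _ (mul_ne_zero h8 (pow_ne_zero _ h8))) h6
  intro h2
  have h3 : ∀ᶠ y in 𝓝 y, D.zz y = 0 := h2.mono fun y hy => not_not.1 hy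
  exact h0 ((H175.eq_zero_of_preconnected (E := C2) S.isOpen_Nin S.Nin_pre
    (fun y hy => D.zz_hol y (S.Nin_W hy)) hy h3 _ S.p0_Nin).mono fun y hy hne => hne hy)

variable (L : LeafOut S.leafIn)

/-- the radius -/
def ep : ℝ := min S.c (1 / 4) / 2

theorem ep_pos : 0 < S.ep := by
  have := S.c_pos
  unfold ep
  positivity

theorem ep_lt : S.ep < S.c := by
  have h1 := S.c_pos
  have h2 : min S.c (1 / 4) ≤ S.c := min_le_left _ _
  unfold ep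
  linarith

theorem ep_le : S.ep ≤ 1 / 8 := by
  have h2 : min S.c (1 / 4) ≤ 1 / 4 := min_le_right _ _
  unfold ep
  linarith

theorem mem_pbd {x : C2} (h0 : x ≠ 0) (h : ‖x‖ < S.ep) : x ∈ pbd S.c := by
  have h1 := norm_le_pi_norm x 0
  have h2 := norm_le_pi_norm x 1
  have h3 := S.ep_lt
  have h4 := S.ep_le
  exact ⟨h0, by linarith, by linarith⟩

theorem mem_pbd' {x : C2} (h0 : x ≠ 0) (h : ‖x‖ ≤ S.ep) : x ∈ pbd S.c := by
  have h1 := norm_le_pi_norm x 0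
  have h2 := norm_le_pi_norm x 1
  have h3 := S.ep_lt
  have h4 := S.ep_le
  exact ⟨h0, by linarith, by linarith⟩

theorem Th_Y {x : C2} (hx : x ∈ pbd S.c) : L.Θ x ∈ S.Y := L.Θ_mem x hx

theorem Th_A {x : C2} (hx : x ∈ pbd S.c) : 0 < D.A (L.Θ x) := by
  refine lt_of_le_of_ne (D.A_nonneg _) fun h => ?_
  exact (S.Th_Y L hx).2 ((D.A_zero _).1 h.symm)

theorem Th_cont : ContinuousOn L.Θ (pbd S.c) := L.Θ_hol.continuousOn

theorem Thi_cont : ContinuousOn L.Θi (L.Θ '' pbd S.c) := L.Θi_hol.continuousOn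

theorem isOpen_Th {U : Set C2} (hU : IsOpen U) (hUp : U ⊆ pbd S.c) : IsOpen (L.Θ '' U) := by
  have h1 : L.Θ '' U = L.Θ '' pbd S.c ∩ L.Θi ⁻¹' U := by
    apply Subset.antisymm
    · rintro _ ⟨x, hx, rfl⟩
      refine ⟨⟨x, hUp hx, rfl⟩, ?_⟩
      rw [mem_preimage, L.Θi_Θ x (hUp hx)]
      exact hx
    · rintro _ ⟨⟨x, hx, rfl⟩, hx2⟩
      rw [mem_preimage, L.Θi_Θ x hx] at hx2
      exact ⟨x, hx2, rfl⟩
  rw [h1]
  exact (S.Thi_cont L).isOpen_inter_preimage L.Θ_open hU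

/-- `A` is bounded below on the outer parts of the collar -/
theorem kap_A : ∃ δ > 0, ∀ x ∈ S.cus, 1 / 8 ≤ ‖x 1‖ → δ < D.A (S.kap x) := by
  have hr := S.r_pos
  set K : Set C2 := {x | x ∈ cpd S.ρ ∧ S.r / 8 ≤ ‖x 1‖} with hK
  have hKc : IsCompact K := (isCompact_cpd S.ρ).inter_right
    (show IsClosed {x : C2 | S.r / 8 ≤ ‖x 1‖} from isClosed_le (by fun_prop) (by fun_prop))
  have hKt : K ⊆ D.E.target := fun x hx => S.ρ_tgt hx.1
  obtain ⟨δ, hδ, h⟩ := exists_lt_of_compact (g := fun x => D.A (D.E.symm x)) hKc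
    (D.A_cont.comp_continuousOn (D.E.continuousOn_symm.mono hKt)) (fun x hx => by
      refine lt_of_le_of_ne (D.A_nonneg _) fun h => ?_
      have h1 := (D.E_Z x (hKt hx)).1 ((D.A_zero _).1 h.symm)
      have h2 := hx.2
      rw [h1, norm_zero] at h2
      linarith)
  refine ⟨δ, hδ, fun x hx hx1 => h _ ⟨S.box_cpd (S.psi_box hx), ?_⟩⟩
  rw [norm_psi_one]
  nlinarith

/-- **(★)** where `A` is small, one is on `Z` or in the coordinates `Θ`, near `0` -/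
theorem star {η : ℝ} (hη : 0 < η) : ∃ δ > 0, ∀ y, D.A y < δ →
    y ∈ D.Z ∨ ∃ x ∈ pbd S.c, ‖x‖ < η ∧ L.Θ x = y := by
  have hc := S.c_pos
  obtain ⟨δ₁, hδ₁, h₁⟩ := S.exists_lt_Nin
  obtain ⟨δ₂, hδ₂, h₂⟩ := S.kap_A
  set η₀ : ℝ := min η S.c / 2 with hη₀
  have hη₀p : 0 < η₀ := by positivity
  have hη₀η : η₀ < η := by
    have : min η S.c ≤ η := min_le_left _ _
    rw [hη₀]
    linarith
  have hη₀c : η₀ < S.c := by
    have : min η S.c ≤ S.c := min_le_right _ _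
    rw [hη₀]
    linarith
  obtain ⟨δ₃, hδ₃, -, h₃⟩ := S.zz_small (pow_pos hη₀p D.m)
  set K : Set C2 := {x | ‖x 0‖ ≤ η₀ ∧ η₀ ≤ ‖x 1‖ ∧ ‖x 1‖ ≤ 1 / 4} with hK
  have hKp : K ⊆ pbd S.c := by
    rintro x ⟨h1, h2, h3⟩
    refine ⟨fun h => ?_, by linarith, by linarith⟩
    rw [h, Pi.zero_apply, norm_zero] at h2
    linarith
  have hKc : IsCompact K := by
    have h1 : IsClosed {x : C2 | ‖x 0‖ ≤ η₀} := isClosed_le (by fun_prop) (by fun_prop)
    have h2 : IsClosed {x : C2 | η₀ ≤ ‖x 1‖} := isClosed_le (by fun_prop) (by fun_prop)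
    have h3 : IsClosed {x : C2 | ‖x 1‖ ≤ 1 / 4} := isClosed_le (by fun_prop) (by fun_prop)
    refine (isCompact_cpd (max η₀ (1 / 4))).of_isClosed_subset (h1.inter (h2.inter h3)) ?_
    rintro x ⟨k1, -, k3⟩
    exact ⟨le_trans k1 (le_max_left _ _), le_trans k3 (le_max_right _ _)⟩
  obtain ⟨δ₄, hδ₄, h₄⟩ := exists_lt_of_compact (g := fun x => D.A (L.Θ x)) hKc
    (D.A_cont.comp_continuousOn ((S.Th_cont L).mono hKp)) (fun x hx => S.Th_A L (hKp hx))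
  refine ⟨min (min δ₁ δ₂) (min δ₃ δ₄), lt_min (lt_min hδ₁ hδ₂) (lt_min hδ₃ hδ₄), fun y hy => ?_⟩
  have hy1 := hy.trans_le ((min_le_left _ _).trans (min_le_left _ _))
  have hy2 := hy.trans_le ((min_le_left _ _).trans (min_le_right _ _))
  have hy3 := hy.trans_le ((min_le_right _ _).trans (min_le_left _ _))
  have hy4 := hy.trans_le ((min_le_right _ _).trans (min_le_right _ _))
  by_cases hyZ : y ∈ D.Z
  · exact Or.inl hyZ
  right
  have hyY : y ∈ S.Y := ⟨h₁ y hy1, hyZ⟩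
  rcases L.surj y hyY with ⟨x, hx, rfl⟩ | ⟨x, ⟨hx, hx1⟩, rfl⟩
  · have hx1 : ‖x 1‖ < 1 / 4 := by
      by_contra hcon
      obtain ⟨x', hx', -, h6, h7⟩ := L.Θ_κ x hx (not_lt.1 hcon)
      have h8 : ‖x 1‖ ≤ ‖x' 1‖ + ‖x' 1 - x 1‖ := by
        have := norm_sub_norm_le (x 1) (x' 1)
        rw [norm_sub_rev] at this
        linarith
      have h9 := h₂ x' hx' (by have := not_lt.1 hcon; linarith)
      have h10 : L.Θ x = S.kap x' := h7
      rw [h10] at hy2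
      linarith
    have hx0 : ‖x 0‖ < η₀ := by
      have h6 := h₃ _ hy3
      have h7 : D.zz (L.Θ x) = x 0 ^ D.m := L.Θ_zz x hx
      rw [h7, norm_pow] at h6
      exact lt_of_pow_lt_pow_left₀ _ hη₀p.le h6
    have hx1' : ‖x 1‖ < η₀ := by
      by_contra hcon
      have := h₄ x ⟨hx0.le, not_lt.1 hcon, hx1.le⟩
      linarith
    refine ⟨x, hx, ?_, rfl⟩
    rw [pi_norm_lt_iff hη]
    intro i
    fin_cases i
    · exact hx0.trans hη₀η
    · exact hx1'.trans hη₀η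
  · exfalso
    have h6 := h₂ x hx (by linarith)
    have h7 : S.leafIn.κ x = S.kap x := rfl
    rw [h7] at hy2
    linarith

open Classical in
/-- the coordinates -/
def Pi (y : M) : C2 := if y ∈ D.Z then 0 else L.Θi y

/-- their domain -/
def Om : Set M := D.Z ∪ L.Θ '' {x | x ≠ 0 ∧ ‖x‖ < S.ep}

theorem Pi_of_Z {y : M} (hy : y ∈ D.Z) : S.Pi L y = 0 := if_pos hy

theorem Pi_of_not {y : M} (hy : y ∉ D.Z) : S.Pi L y = L.Θi y := if_neg hy

theorem Pi_Th {x : C2} (hx : x ∈ pbd S.c) : S.Pi L (L.Θ x) = x := by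
  rw [S.Pi_of_not L (S.Th_Y L hx).2]
  exact L.Θi_Θ x hx

theorem Om_Nin {y : M} (hy : y ∈ S.Om L) : y ∈ S.Nin := by
  rcases hy with h | ⟨x, ⟨h0, h1⟩, rfl⟩
  · exact S.Z_Nin h
  · exact (S.Th_Y L (S.mem_pbd h0 h1)).1

theorem Om_star {η : ℝ} (hη : 0 < η) : ∃ δ > 0, ∀ y, D.A y < δ →
    y ∈ S.Om L ∧ ‖S.Pi L y‖ < η := by
  obtain ⟨δ, hδ, h⟩ := S.star L (lt_min hη S.ep_pos)
  refine ⟨δ, hδ, fun y hy => ?_⟩
  rcases h y hy with h1 | ⟨x, hx, hx1, rfl⟩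
  · refine ⟨Or.inl h1, ?_⟩
    rw [S.Pi_of_Z L h1, norm_zero]
    exact hη
  · refine ⟨Or.inr ⟨x, ⟨hx.1, hx1.trans_le (min_le_right _ _)⟩, rfl⟩, ?_⟩
    rw [S.Pi_Th L hx]
    exact hx1.trans_le (min_le_left _ _)

theorem isOpen_Om : IsOpen (S.Om L) := by
  rw [isOpen_iff_mem_nhds]
  rintro y (hy | hy)
  · obtain ⟨δ, hδ, h⟩ := S.Om_star L one_pos
    have h1 : {z | D.A z < δ} ∈ 𝓝 y :=
      (isOpen_lt D.A_cont continuous_const).mem_nhds (by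
        show D.A y < δ
        rw [(D.A_zero y).2 hy]
        exact hδ)
    exact mem_of_superset h1 fun z hz => (h z hz).1
  · have h1 : IsOpen {x : C2 | x ≠ 0 ∧ ‖x‖ < S.ep} := by
      have k0 : IsOpen {x : C2 | x ≠ 0} := isOpen_ne
      have k1 : IsOpen {x : C2 | ‖x‖ < S.ep} := isOpen_lt (by fun_prop) (by fun_prop)
      exact k0.inter k1
    have h2 := S.isOpen_Th L h1 fun x hx => S.mem_pbd hx.1 hx.2
    exact mem_of_superset (h2.mem_nhds hy) subset_union_right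

theorem Om_cases {y : M} (hy : y ∈ S.Om L) (h0 : S.Pi L y ≠ 0) :
    ∃ x ∈ pbd S.c, ‖x‖ < S.ep ∧ L.Θ x = y := by
  rcases hy with h | ⟨x, ⟨h1, h2⟩, rfl⟩
  · exact absurd (S.Pi_of_Z L h) h0
  · exact ⟨x, S.mem_pbd h1 h2, h2, rfl⟩

theorem mem_Z_of_Pi {y : M} (hy : y ∈ S.Om L) (h0 : S.Pi L y = 0) : y ∈ D.Z := by
  rcases hy with h | ⟨x, ⟨h1, h2⟩, rfl⟩
  · exact h
  · rw [S.Pi_Th L (S.mem_pbd h1 h2)] at h0
    exact absurd h0 h1

theorem Pi_eventually {x : C2} (hx : x ∈ pbd S.c) : S.Pi L =ᶠ[𝓝 (L.Θ x)] L.Θi := by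
  have h1 : L.Θ '' pbd S.c ∈ 𝓝 (L.Θ x) := L.Θ_open.mem_nhds ⟨x, hx, rfl⟩
  filter_upwards [h1] with z hz
  obtain ⟨x', hx', rfl⟩ := hz
  exact S.Pi_of_not L (S.Th_Y L hx').2

theorem Pi_hol {x : C2} (hx : x ∈ pbd S.c) :
    MDifferentiableAt 𝓘(ℂ, C2) 𝓘(ℂ, C2) (S.Pi L) (L.Θ x) := by
  have h1 : MDifferentiableAt 𝓘(ℂ, C2) 𝓘(ℂ, C2) L.Θi (L.Θ x) :=
    (L.Θi_hol _ ⟨x, hx, rfl⟩).mdifferentiableAt (L.Θ_open.mem_nhds ⟨x, hx, rfl⟩)
  exact h1.congr_of_eventuallyEq (S.Pi_eventually L hx)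

theorem Pi_contAt {y : M} (hy : y ∈ S.Om L) : ContinuousAt (S.Pi L) y := by
  by_cases h0 : S.Pi L y = 0
  · rw [ContinuousAt, h0, tendsto_zero_iff_norm_tendsto_zero, Metric.tendsto_nhds]
    intro η hη
    obtain ⟨δ, hδ, h⟩ := S.Om_star L hη
    have h1 : {z | D.A z < δ} ∈ 𝓝 y :=
      (isOpen_lt D.A_cont continuous_const).mem_nhds (by
        show D.A y < δ
        rw [(D.A_zero y).2 (S.mem_Z_of_Pi L hy h0)]
        exact hδ)
    filter_upwards [h1] with z hz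
    rw [Real.dist_eq, sub_zero, abs_of_nonneg (norm_nonneg _)]
    exact (h z hz).2
  · obtain ⟨x, hx, -, rfl⟩ := S.Om_cases L hy h0
    exact (S.Pi_hol L hx).continuousAt

/-- points of the outer collar are not in the small coordinate ball -/
theorem kap_not {x : C2} (hx : x ∈ S.cus) (hx1 : 4 < ‖x 1‖) {x' : C2} (hx' : x' ∈ pbd S.c)
    (h : ‖x'‖ ≤ S.ep) : L.Θ x' ≠ S.kap x := by
  intro he
  obtain ⟨h1, h2⟩ := L.κ_Θ x' hx' x hx (by linarith) he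
  have h3 := norm_le_pi_norm x' 1
  have h4 := S.ep_le
  have h5 : ‖x 1‖ ≤ ‖x' 1‖ + ‖x 1 - x' 1‖ := by
    have := norm_sub_norm_le (x 1) (x' 1)
    linarith
  linarith

theorem closed_aux {r : ℝ} (hr : r < S.ep) : IsClosed {y | y ∈ S.Om L ∧ ‖S.Pi L y‖ ≤ r} := by
  rcases lt_or_ge r 0 with hr0 | hr0
  · have : {y | y ∈ S.Om L ∧ ‖S.Pi L y‖ ≤ r} = ∅ := by
      ext y
      simp only [mem_ofPred_eq, mem_empty_iff_false, iff_false, not_and, not_le]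
      intro _
      exact hr0.trans_le (norm_nonneg _)
    rw [this]
    exact isClosed_empty
  set T : Set M := {y | y ∈ S.Om L ∧ ‖S.Pi L y‖ ≤ r} with hT
  have hTcase : ∀ y ∈ T, y ∉ D.Z → ∃ x ∈ pbd S.c, ‖x‖ ≤ r ∧ L.Θ x = y := by
    intro y hy hyZ
    have h0 : S.Pi L y ≠ 0 := fun h => hyZ (S.mem_Z_of_Pi L hy.1 h)
    obtain ⟨x, hx, -, rfl⟩ := S.Om_cases L hy.1 h0
    refine ⟨x, hx, ?_, rfl⟩
    have := hy.2
    rwa [S.Pi_Th L hx] at this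
  have hsr := S.r_pos
  refine isClosed_of_closure_subset fun y hy => ?_
  have hyN : y ∈ S.Nin := by
    refine S.mem_of_closure (T := T) (fun z hz => S.Om_Nin L hz.1) (q := r ^ D.m) ?_ ?_
      (r' := 4 * S.r) (by linarith) ?_ hy
    · exact pow_lt_pow_left₀ (hr.trans S.ep_lt) hr0 D.m_pos.ne'
    · intro z hz
      by_cases hzZ : z ∈ D.Z
      · rw [(D.zz_zero z (D.Z_W hzZ)).2 (Or.inl hzZ), norm_zero]
        positivity
      · obtain ⟨x, hx, hxr, rfl⟩ := hTcase z hz hzZ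
        have h7 : D.zz (L.Θ x) = x 0 ^ D.m := L.Θ_zz x hx
        rw [h7, norm_pow]
        have h8 := norm_le_pi_norm x 0
        have h9 : ‖x 0‖ ≤ r := h8.trans hxr
        gcongr
    · intro x hx hx1 hxT
      have hxne : x 1 ≠ 0 := by
        rw [← norm_pos_iff]
        linarith
      have hxZ : D.E.symm x ∉ D.Z := fun h => hxne ((D.E_Z x (S.box_tgt hx)).1 h)
      obtain ⟨x', hx', hxr, he⟩ := hTcase _ hxT hxZ
      rw [← S.kap_psiI hxne] at he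
      refine S.kap_not L (S.psiI_cus hx hxne) ?_ hx' (by linarith) he
      rw [norm_psiI_one, lt_div_iff₀ hsr]
      linarith
  by_cases hyZ : y ∈ D.Z
  · refine ⟨Or.inl hyZ, ?_⟩
    rw [S.Pi_of_Z L hyZ, norm_zero]
    exact hr0
  have hZc : D.Zᶜ ∈ 𝓝 y := D.Z_closed.isOpen_compl.mem_nhds hyZ
  rcases L.surj y ⟨hyN, hyZ⟩ with ⟨x, hx, rfl⟩ | ⟨x, ⟨hx, hx1⟩, rfl⟩
  · have h1 : ContinuousAt (fun z => ‖L.Θi z‖) (L.Θ x) :=
      ((S.Thi_cont L).continuousAt (L.Θ_open.mem_nhds ⟨x, hx, rfl⟩)).norm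
    have h2 : ∃ᶠ z in 𝓝 (L.Θ x), ‖L.Θi z‖ ∈ Iic r := by
      refine ((mem_closure_iff_frequently.1 hy).and_eventually hZc).mono ?_
      rintro z ⟨hz, hzZ⟩
      obtain ⟨x', hx', hxr, rfl⟩ := hTcase z hz hzZ
      rw [L.Θi_Θ x' hx']
      exact hxr
    have h3 : ‖L.Θi (L.Θ x)‖ ≤ r := isClosed_Iic.mem_of_frequently_of_tendsto h2 h1
    rw [L.Θi_Θ x hx] at h3
    refine ⟨Or.inr ⟨x, ⟨hx.1, h3.trans_lt hr⟩, rfl⟩, ?_⟩
    rw [S.Pi_Th L hx]
    exact h3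
  · exfalso
    have h1 : IsOpen (S.kap '' {x | x ∈ S.cus ∧ 9 / 2 < ‖x 1‖}) :=
      S.isOpen_kap (T := Ioi (9 / 2)) isOpen_Ioi
    obtain ⟨w, hw1, hw2⟩ := mem_closure_iff_nhds.1 hy _
      (inter_mem (h1.mem_nhds ⟨x, ⟨hx, hx1⟩, rfl⟩) hZc)
    obtain ⟨x', hx', hxr, he⟩ := hTcase w hw2 hw1.2
    obtain ⟨x'', ⟨hx'', hx1''⟩, he''⟩ := hw1.1
    exact S.kap_not L hx'' (by linarith) hx' (by linarith) (he.trans he''.symm)

end Sel

/-- **From the leaf theorem to the global spherical shell.** -/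
theorem hasGSS_of_leafOut {X : Type*} [TopologicalSpace X] [ChartedSpace (Cm 2) X]
    (S : D.Sel) (L : LeafOut S.leafIn)
    (p : M → X) (p_surj : Function.Surjective p) (p_holo : MDifferentiable 𝓘(ℂ, Cm 2) 𝓘(ℂ, Cm 2) p)
    (p_sec : ∀ y, ∃ s : X → M, s (p y) = y ∧ (∀ᶠ x in 𝓝 (p y), p (s x) = x) ∧
      MDifferentiableAt 𝓘(ℂ, Cm 2) 𝓘(ℂ, Cm 2) s (p y))
    (φ : M ≃ₜ M) (φ_holo : MDifferentiable 𝓘(ℂ, Cm 2) 𝓘(ℂ, Cm 2) φ)
    (p_eq : ∀ y y', p y = p y' ↔ ∃ k : ℕ, φ^[k] y = y' ∨ φ^[k] y' = y)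
    (hf : ∀ y, D.f (φ y) = D.f y - 1) (hZ : ∀ y ∈ D.Z, φ y ∈ D.Z) : HasGSS X := by
  have hfk : ∀ (k : ℕ) y, D.f (φ^[k] y) = D.f y - k := by
    intro k
    induction k with
    | zero => intro y; simp
    | succ k ih =>
      intro y
      rw [Function.iterate_succ_apply, ih, hf]
      push_cast
      ring
  have hfs : ∀ y, D.f (φ.symm y) = D.f y + 1 := by
    intro y
    have := hf (φ.symm y)
    rw [φ.apply_symm_apply] at this
    linarith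
  have hfsk : ∀ (k : ℕ) y, D.f (φ.symm^[k] y) = D.f y + k := by
    intro k
    induction k with
    | zero => intro y; simp
    | succ k ih =>
      intro y
      rw [Function.iterate_succ_apply, ih, hfs]
      push_cast
      ring
  have hOb : ∀ y ∈ S.Om L, D.f y ≤ S.b := fun y hy => S.ε_b y (S.Nin_N0 (S.Om_Nin L hy)).1.le
  have hep := S.ep_pos
  obtain ⟨δ₀, hδ₀, h₀⟩ := S.Om_star L (half_pos hep)
  obtain ⟨a₀, ha₀⟩ := D.A_in δ₀ hδ₀
  obtain ⟨K, hK⟩ := exists_nat_gt (S.b - a₀)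
  have hKlt : ∀ y ∈ S.Om L, D.f (φ^[K] y) < a₀ := by
    intro y hy
    rw [hfk]
    have := hOb y hy
    linarith
  refine H615.hasGSS_of_contracting p p_surj p_holo p_sec φ φ_holo p_eq (S.Om L) (S.isOpen_Om L)
    (S.Pi L) L.Θ S.ep hep (fun y hy => (S.Pi_contAt L hy).continuousWithinAt) ?_ ?_ ?_ ?_ ?_ ?_
    (fun r hr => S.closed_aux L hr) ?_ S.ep hep K ?_ ?_ le_rfl ?_ ?_
  · -- `Pi_holo`
    intro y hy h0 _
    obtain ⟨x, hx, -, rfl⟩ := S.Om_cases L hy h0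
    exact S.Pi_hol L hx
  · -- `Pi_zero`
    intro y hy h0
    have hyN := S.Om_Nin L hy
    refine ⟨D.zz, ?_, S.zz_freq hyN, ?_⟩
    · filter_upwards [S.isOpen_Nin.mem_nhds hyN] with z hz using D.zz_hol z (S.Nin_W hz)
    · filter_upwards [(S.isOpen_Om L).mem_nhds hy] with z hz hz0
      have hzZ := S.mem_Z_of_Pi L hz hz0
      exact (D.zz_zero z (D.Z_W hzZ)).2 (Or.inl hzZ)
  · -- `Θ_holo`
    intro x h0 hx
    have hxp := S.mem_pbd h0 hx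
    exact (L.Θ_hol x hxp).mdifferentiableAt ((isOpen_pbd S.c).mem_nhds hxp)
  · exact fun x h0 hx => Or.inr ⟨x, ⟨h0, hx⟩, rfl⟩
  · exact fun x h0 hx => S.Pi_Th L (S.mem_pbd h0 hx)
  · intro y hy h0 _
    obtain ⟨x, hx, -, rfl⟩ := S.Om_cases L hy h0
    rw [S.Pi_Th L hx]
  · -- `small`
    intro η hη
    obtain ⟨δA, hδA, hA⟩ := S.Om_star L hη
    obtain ⟨a, ha⟩ := D.A_in δA hδA
    have hcl : IsClosed ({y | y ∈ S.Om L ∧ ‖S.Pi L y‖ ≤ S.ep / 2} ∩ {y | δA ≤ D.A (φ y)}) :=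
      (S.closed_aux L (half_lt_self hep)).inter
        (isClosed_le continuous_const (D.A_cont.comp φ.continuous))
    have hco : IsCompact ({y | y ∈ S.Om L ∧ ‖S.Pi L y‖ ≤ S.ep / 2} ∩ {y | δA ≤ D.A (φ y)}) := by
      refine (D.f_proper a S.b).of_isClosed_subset hcl fun y hy => ⟨?_, hOb y hy.1.1⟩
      by_contra hcon
      have h1 := ha (φ y) (by
        rw [hf]
        have := not_le.1 hcon
        linarith)
      have h2 : δA ≤ D.A (φ y) := hy.2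
      linarith
    obtain ⟨δ, hδ, h⟩ := exists_lt_of_compact (g := fun y => ‖S.Pi L y‖) hco
      (fun y hy => (S.Pi_contAt L hy.1.1).norm.continuousWithinAt) (fun y hy => by
        rw [norm_pos_iff]
        intro h0
        have h1 : D.A (φ y) = 0 := (D.A_zero _).2 (hZ y (S.mem_Z_of_Pi L hy.1.1 h0))
        have h2 : δA ≤ D.A (φ y) := hy.2
        linarith)
    refine ⟨min δ (S.ep / 2), lt_min hδ (half_pos hep), fun y hy hy2 => hA _ ?_⟩
    by_contra hcon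
    have h1 := h y ⟨⟨hy, (hy2.trans_le (min_le_right _ _)).le⟩, not_lt.1 hcon⟩
    have h2 := hy2.trans_le (min_le_left _ _)
    linarith
  · -- `pow_mem`
    intro y hy _
    exact (h₀ _ (ha₀ _ (hKlt y hy))).1
  · intro y hy _
    exact (h₀ _ (ha₀ _ (hKlt y hy))).2
  · -- `absorb`
    intro r hr y
    obtain ⟨δ, hδ, h⟩ := S.Om_star L hr
    obtain ⟨a, ha⟩ := D.A_in δ hδ
    obtain ⟨k, hk⟩ := exists_nat_gt (D.f y - a)
    refine ⟨k, h _ (ha _ ?_)⟩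
    rw [hfk]
    linarith
  · -- `exit`
    intro y
    obtain ⟨k, hk⟩ := exists_nat_gt (S.b - D.f y)
    refine ⟨k, fun h => ?_⟩
    have h1 := hOb _ h
    rw [hfsk] at h1
    linarith

end NormA

/-- **Global spherical shell from the normalised geometry, given the leaf theorem.** -/
theorem NormA.hasGSS {M : Type} [TopologicalSpace M] [T2Space M] [ChartedSpace C2 M]
    [IsManifold 𝓘(ℂ, C2) ω M] (D : NormA M) (hL : LeafThm)
    {X : Type*} [TopologicalSpace X] [ChartedSpace (Cm 2) X]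
    (p : M → X) (p_surj : Function.Surjective p) (p_holo : MDifferentiable 𝓘(ℂ, Cm 2) 𝓘(ℂ, Cm 2) p)
    (p_sec : ∀ y, ∃ s : X → M, s (p y) = y ∧ (∀ᶠ x in 𝓝 (p y), p (s x) = x) ∧
      MDifferentiableAt 𝓘(ℂ, Cm 2) 𝓘(ℂ, Cm 2) s (p y))
    (φ : M ≃ₜ M) (φ_holo : MDifferentiable 𝓘(ℂ, Cm 2) 𝓘(ℂ, Cm 2) φ)
    (p_eq : ∀ y y', p y = p y' ↔ ∃ k : ℕ, φ^[k] y = y' ∨ φ^[k] y' = y)
    (hf : ∀ y, D.f (φ y) = D.f y - 1) (hZ : ∀ y ∈ D.Z, φ y ∈ D.Z) : HasGSS X := by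
  obtain ⟨S⟩ := D.exists_sel
  obtain ⟨L⟩ := hL M S.leafIn
  exact NormA.hasGSS_of_leafOut S L p p_surj p_holo p_sec φ φ_holo p_eq hf hZ

end Vale.Agent.P267.H759
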