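import Vale.Agent.P267.H759.RawNorm

/-!
# P267 / H759: from the raw geometry to the normalised geometry, 2
-/

set_option linter.unusedVariables false
set_option linter.unusedSectionVars false

open scoped Manifold ContDiff Topology
open Set Filter

noncomputable section

namespace Vale.Agent.P267.H759

open Vale.Agent.P267.FL

variable {M : Type} [TopologicalSpace M] [ChartedSpace C2 M] [IsManifold 𝓘(ℂ, C2) ω M]

theorem mfderiv_eq_chart {a : M → ℂ} {p : M} (ha : MDifferentiableAt 𝓘(ℂ, C2) 𝓘(ℂ, ℂ) a p) :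
    (mfderiv 𝓘(ℂ, C2) 𝓘(ℂ, ℂ) a p : C2 →L[ℂ] ℂ) =
      fderiv ℂ (fun z => a ((chartAt C2 p).symm z)) (chartAt C2 p p) := by
  have h1 : fderivWithin ℂ (writtenInExtChartAt 𝓘(ℂ, C2) 𝓘(ℂ, ℂ) p a) (range 𝓘(ℂ, C2))
      (extChartAt 𝓘(ℂ, C2) p p) = fderiv ℂ (fun z => a ((chartAt C2 p).symm z)) (chartAt C2 p p) := by
    simp only [writtenInExtChartAt, extChartAt, mfld_simps]
    rw [fderivWithin_univ]
    rfl
  exact ha.mfderiv.trans h1

theorem RawA.exists_normA [T2Space M] (R : RawA M) (hNF : NFThm) :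
    ∃ D : NormA M, D.f = R.f ∧ D.Z = R.Z := by
  have hM1 : IsManifold 𝓘(ℂ, C2) 1 M := IsManifold.of_le (n := ω) le_top
  set e : Ch M := chartAt C2 R.p0 with he
  have hea : e ∈ atlas C2 M := chart_mem_atlas C2 _
  have hp0e : R.p0 ∈ e.source := mem_chart_source C2 _
  set c0 : C2 := e R.p0 with hc0
  have hp0W : R.p0 ∈ R.W := R.Z_W R.p0_Z
  -- independence
  obtain ⟨dA, hdA⟩ : ∃ dA : C2 →L[ℂ] ℂ, dA = mfderiv 𝓘(ℂ, C2) 𝓘(ℂ, ℂ) R.a R.p0 := ⟨_, rfl⟩
  obtain ⟨dB, hdB⟩ : ∃ dB : C2 →L[ℂ] ℂ, dB = mfderiv 𝓘(ℂ, C2) 𝓘(ℂ, ℂ) R.b R.p0 := ⟨_, rfl⟩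
  have hi0 : LinearIndependent ℂ ![dA, dB] := by
    rw [hdA, hdB]
    exact R.indep
  have hi := LinearIndependent.pair_iff.1 hi0
  have ha_p : MDifferentiableAt 𝓘(ℂ, C2) 𝓘(ℂ, ℂ) R.a R.p0 := R.a_hol.self_of_nhds
  have hb_p : MDifferentiableAt 𝓘(ℂ, C2) 𝓘(ℂ, ℂ) R.b R.p0 := R.b_hol.self_of_nhds
  have ha0 : dA ≠ 0 := by
    intro h
    have := (hi 1 0 (by rw [h]; ext v; simp)).1
    exact one_ne_zero this
  have hb0 : dB ≠ 0 := by
    intro h
    have := (hi 0 1 (by rw [h]; ext v; simp)).2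
    exact one_ne_zero this
  rw [hdA] at ha0
  rw [hdB] at hb0
  have hfr := frequently_ne R.a_hol R.b_hol ha0 hb0
  -- first unit
  obtain ⟨u, hu, hu0, huF⟩ := exists_unit (p := R.p0) (F := R.zz)
    (P := fun x => R.a x ^ R.m * R.b x ^ (R.μ * R.m)) (k := R.k₁)
    (by filter_upwards [R.W_open.mem_nhds hp0W] with x hx using R.zz_hol x hx)
    (by
      filter_upwards [R.a_hol, R.b_hol] with x h1 h2
      exact (h1.pow R.m).mul (h2.pow (R.μ * R.m)))
    (hfr.mono fun x hx => mul_ne_zero (pow_ne_zero _ hx.1) (pow_ne_zero _ hx.2))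
    R.k₁_cont.self_of_nhds R.k₁_pos
    (by
      filter_upwards [R.zz_norm] with x hx
      rw [hx, norm_mul, norm_pow, norm_pow, mul_pow, ← pow_mul])
  -- second unit
  obtain ⟨V, hV, hpV, σ, hσ, hσG⟩ := R.G_loc R.p0 hp0W
  have hσd : ∀ x ∈ V ∩ e.source, MDifferentiableAt 𝓘(ℂ, C2) 𝓘(ℂ, ℂ)
      (fun x => (jac e x).det * σ x) x := by
    rintro x ⟨hxV, hxe⟩
    have h1 : DifferentiableAt ℂ (loc0 1 e σ) (e x) := by
      refine (hσ e hea (e x) ⟨e.map_source hxe, ?_⟩).differentiableAt ?_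
      · rw [mem_preimage, e.left_inv hxe]
        exact hxV
      · refine (e.symm.isOpen_inter_preimage hV).mem_nhds ⟨e.map_source hxe, ?_⟩
        rw [mem_preimage, e.left_inv hxe]
        exact hxV
    have h2 : MDifferentiableAt 𝓘(ℂ, C2) 𝓘(ℂ, C2) e x := mdifferentiableAt_atlas hea hxe
    have h3 : MDifferentiableAt 𝓘(ℂ, C2) 𝓘(ℂ, ℂ) ((loc0 1 e σ) ∘ e) x :=
      h1.mdifferentiableAt.comp x h2
    refine h3.congr_of_eventuallyEq ?_
    filter_upwards [e.open_source.mem_nhds hxe] with y hy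
    simp only [Function.comp_apply, loc0, e.left_inv hy, zpow_one, smul_eq_mul]
  obtain ⟨v, hv, hv0, hvF⟩ := exists_unit (p := R.p0) (F := fun x => (jac e x).det * σ x)
    (P := fun x => R.b x ^ R.μ) (k := R.k₂)
    (by
      filter_upwards [(hV.inter e.open_source).mem_nhds ⟨hpV, hp0e⟩] with x hx using hσd x hx)
    (by filter_upwards [R.b_hol] with x h2 using h2.pow R.μ)
    (hfr.mono fun x hx => pow_ne_zero _ hx.2)
    R.k₂_cont.self_of_nhds R.k₂_pos
    (by
      filter_upwards [R.G_norm, hV.mem_nhds hpV] with x hx hxV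
      rw [norm_mul, norm_pow, hσG x hxV, mul_comm, hx])
  -- the good neighbourhood
  have hWev : ∀ᶠ x in 𝓝 R.p0, x ∈ R.W := R.W_open.mem_nhds hp0W
  have hVev : ∀ᶠ x in 𝓝 R.p0, x ∈ V := hV.mem_nhds hpV
  obtain ⟨O, hO, hOo, hpO⟩ := eventually_nhds_iff.1 (((R.a_hol.and R.b_hol).and (hu.and hv)).and
    (((R.a_zero.and R.b_zero).and (huF.and hvF)).and (hWev.and hVev)))
  -- the centred chart
  set T : C2 ≃ₜ C2 := Homeomorph.subRight c0 with hT
  set e' : OpenPartialHomeomorph M C2 := e.transHomeomorph T with he'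
  have e'_src : e'.source = e.source := rfl
  have e'_ap : ∀ x, e' x = e x - c0 := fun x => rfl
  have e'_sy : ∀ z, e'.symm z = e.symm (z + c0) := fun z => rfl
  have e'_tgt : ∀ z, z ∈ e'.target ↔ z + c0 ∈ e.target := fun z => Iff.rfl
  have h0t : (0 : C2) ∈ e'.target := by
    rw [e'_tgt, zero_add]
    exact e.map_source hp0e
  have h0s : e'.symm 0 = R.p0 := by
    rw [e'_sy, zero_add, hc0, e.left_inv hp0e]
  have hsymm : ∀ z ∈ e'.target, MDifferentiableAt 𝓘(ℂ, C2) 𝓘(ℂ, C2) e'.symm z := by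
    intro z hz
    have h1 : MDifferentiableAt 𝓘(ℂ, C2) 𝓘(ℂ, C2) e.symm (z + c0) :=
      mdifferentiableAt_atlas_symm hea hz
    have h2 : MDifferentiableAt 𝓘(ℂ, C2) 𝓘(ℂ, C2) (fun z => z + c0) z :=
      (differentiableAt_id.add_const c0).mdifferentiableAt
    have h3 : MDifferentiableAt 𝓘(ℂ, C2) 𝓘(ℂ, C2) (e.symm ∘ fun z => z + c0) z :=
      MDifferentiableAt.comp z (I' := 𝓘(ℂ, C2)) h1 h2
    exact h3
  have hfwd : ∀ x ∈ e'.source, MDifferentiableAt 𝓘(ℂ, C2) 𝓘(ℂ, C2) e' x := by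
    intro x hx
    have h1 : MDifferentiableAt 𝓘(ℂ, C2) 𝓘(ℂ, C2) e x := mdifferentiableAt_atlas hea hx
    have h2 : MDifferentiableAt 𝓘(ℂ, C2) 𝓘(ℂ, C2) (fun z => z - c0) (e x) :=
      (differentiableAt_id.sub_const c0).mdifferentiableAt
    have h3 : MDifferentiableAt 𝓘(ℂ, C2) 𝓘(ℂ, C2) ((fun z => z - c0) ∘ e) x :=
      MDifferentiableAt.comp x (I' := 𝓘(ℂ, C2)) h2 h1
    exact h3
  set U : Set C2 := e'.target ∩ e'.symm ⁻¹' O with hU
  have hUo : IsOpen U := e'.symm.isOpen_inter_preimage hOo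
  have h0U : (0 : C2) ∈ U := ⟨h0t, by rw [mem_preimage, h0s]; exact hpO⟩
  have hdiff : ∀ {g : M → ℂ}, (∀ x ∈ O, MDifferentiableAt 𝓘(ℂ, C2) 𝓘(ℂ, ℂ) g x) →
      DifferentiableOn ℂ (fun z => g (e'.symm z)) U := by
    intro g hg z hz
    have h1 : MDifferentiableAt 𝓘(ℂ, C2) 𝓘(ℂ, ℂ) (g ∘ e'.symm) z :=
      (hg _ hz.2).comp z (hsymm z hz.1)
    exact (mdifferentiableAt_iff_differentiableAt.1 h1).differentiableWithinAt
  have hder : ∀ {g : M → ℂ}, MDifferentiableAt 𝓘(ℂ, C2) 𝓘(ℂ, ℂ) g R.p0 →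
      fderiv ℂ (fun z => g (e'.symm z)) 0 = (mfderiv 𝓘(ℂ, C2) 𝓘(ℂ, ℂ) g R.p0 : C2 →L[ℂ] ℂ) := by
    intro g hg
    rw [mfderiv_eq_chart hg]
    have h1 : fderiv ℂ (fun z => g (e'.symm z)) 0 = fderiv ℂ (fun w => g (e.symm w)) (0 + c0) :=
      fderiv_comp_add_right (𝕜 := ℂ) (f := fun w => g (e.symm w)) (x := 0) c0
    rw [h1, zero_add]
  have hind : LinearIndependent ℂ ![fderiv ℂ (fun z => R.a (e'.symm z)) 0,
      fderiv ℂ (fun z => R.b (e'.symm z)) 0] := by
    rw [LinearIndependent.pair_iff]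
    intro s t hst
    refine hi s t ?_
    rw [hder ha_p, hder hb_p] at hst
    rw [hdA, hdB]
    exact hst
  obtain ⟨E0, hE0, hE0U, hE00, hE0d, hE0s, hEa, hEb, hEz, H, hH, hH1, hHG⟩ :=
    hNF U (fun z => R.a (e'.symm z)) (fun z => R.b (e'.symm z)) (fun z => u (e'.symm z))
      (fun z => v (e'.symm z)) R.m R.μ hUo h0U R.m_pos
      (hdiff fun x hx => (hO x hx).1.1.1) (hdiff fun x hx => (hO x hx).1.1.2)
      (hdiff fun x hx => (hO x hx).1.2.1) (hdiff fun x hx => (hO x hx).1.2.2)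
      (by
        show R.a (e'.symm 0) = 0
        rw [h0s]
        exact (hO _ hpO).2.1.1.1.2 R.p0_C)
      (by
        show R.b (e'.symm 0) = 0
        rw [h0s]
        exact (hO _ hpO).2.1.1.2.2 R.p0_Z)
      (by
        show u (e'.symm 0) ≠ 0
        rw [h0s]
        exact hu0)
      (by
        show v (e'.symm 0) ≠ 0
        rw [h0s]
        exact hv0) hind
  set E : OpenPartialHomeomorph M C2 := e'.trans E0 with hE
  have hEt : ∀ x ∈ E.target, x ∈ E0.target ∧ E0.symm x ∈ E0.source ∧ E0.symm x ∈ e'.target ∧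
      E.symm x ∈ O := by
    intro x hx
    rw [hE, OpenPartialHomeomorph.trans_target] at hx
    have h1 : E0.symm x ∈ E0.source := E0.map_target hx.1
    exact ⟨hx.1, h1, hx.2, (hE0U h1).2⟩
  have hEs : ∀ x ∈ E.source, x ∈ e'.source ∧ e' x ∈ E0.source ∧ x ∈ O := by
    intro x hx
    rw [hE, OpenPartialHomeomorph.trans_source] at hx
    have h1 := (hE0U hx.2).2
    rw [mem_preimage, e'.left_inv hx.1] at h1
    exact ⟨hx.1, hx.2, h1⟩
  have hE0sy : E0.symm 0 = 0 := by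
    have := E0.left_inv hE0
    rwa [hE00] at this
  have hE0t : (0 : C2) ∈ E.target := by
    rw [hE, OpenPartialHomeomorph.trans_target]
    refine ⟨?_, ?_⟩
    · have := E0.map_source hE0
      rwa [hE00] at this
    · rw [mem_preimage, hE0sy]
      exact h0t
  have hEsy0 : E.symm 0 = R.p0 := by
    have : E.symm 0 = e'.symm (E0.symm 0) := rfl
    rw [this, hE0sy, h0s]
  refine ⟨{
    f := R.f
    f_cont := R.f_cont
    f_proper := R.f_proper
    Z := R.Z
    Z_closed := R.Z_closed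
    C := R.C
    C_closed := R.C_closed
    C_below := R.C_below
    A := R.A
    A_cont := R.A_cont
    A_nonneg := R.A_nonneg
    A_zero := R.A_zero
    A_in := R.A_in
    A_out := R.A_out
    W := R.W
    W_open := R.W_open
    Z_W := R.Z_W
    W_in := R.W_in
    zz := R.zz
    zz_hol := R.zz_hol
    zz_in := R.zz_in
    zz_zero := R.zz_zero
    m := R.m
    m_pos := R.m_pos
    μ := R.μ
    E := E
    E_hol := fun x hx => by
      obtain ⟨h1, h2, h3⟩ := hEs x hx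
      have h4 : MDifferentiableAt 𝓘(ℂ, C2) 𝓘(ℂ, C2) E0 (e' x) :=
        ((hE0d _ h2).differentiableAt (E0.open_source.mem_nhds h2)).mdifferentiableAt
      exact (h4.comp x (hfwd x h1)).mdifferentiableWithinAt
    E_symm_hol := fun x hx => by
      obtain ⟨h1, h2, h3, h4⟩ := hEt x hx
      have h5 : MDifferentiableAt 𝓘(ℂ, C2) 𝓘(ℂ, C2) E0.symm x :=
        ((hE0s _ h1).differentiableAt (E0.open_target.mem_nhds h1)).mdifferentiableAt
      have h6 : MDifferentiableAt 𝓘(ℂ, C2) 𝓘(ℂ, C2) (e'.symm ∘ E0.symm) x :=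
        (hsymm _ h3).comp x h5
      exact h6.mdifferentiableWithinAt
    E_W := fun x hx => (hO x (hEs x hx).2.2).2.2.1
    E_zero := hE0t
    E_Z := fun x hx => by
      obtain ⟨h1, h2, h3, h4⟩ := hEt x hx
      have h5 := hEb _ h2
      rw [E0.right_inv h1] at h5
      exact (hO _ h4).2.1.1.2.symm.trans h5
    E_C := fun x hx => by
      obtain ⟨h1, h2, h3, h4⟩ := hEt x hx
      have h5 := hEa _ h2
      rw [E0.right_inv h1] at h5
      exact (hO _ h4).2.1.1.1.symm.trans h5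
    cross := fun x hxZ hxC => by
      rw [hEsy0]
      exact R.cross x hxZ hxC
    E_zz := fun x hx => by
      obtain ⟨h1, h2, h3, h4⟩ := hEt x hx
      have h5 := hEz _ h2
      rw [E0.right_inv h1] at h5
      have h6 := (hO _ h4).2.1.2.1
      rw [h6, ← h5]
      show R.a (E.symm x) ^ R.m * R.b (E.symm x) ^ (R.μ * R.m) * u (E.symm x) =
        u (E.symm x) * R.a (E.symm x) ^ R.m * R.b (E.symm x) ^ (R.μ * R.m)
      ring
    G := R.G
    G_pos := R.G_pos
    G_loc := fun x hx _ => R.G_loc x hx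
    H := H
    H_hol := hH.mono fun x hx => (hEt x hx).1
    H_one := fun x hx h0 => hH1 x (hEt x hx).1 h0
    E_G := fun x hx hx1 => by
      obtain ⟨h1, h2, h3, h4⟩ := hEt x hx
      have hVy : E.symm x ∈ V := (hO _ h4).2.2.2
      have hyv := (hO _ h4).2.1.2.2
      have hyG := hσG _ hVy
      set y : M := E.symm x with hy
      set w : C2 := E0.symm x with hw
      have hyw : y = e.symm (w + c0) := rfl
      have hwt : w + c0 ∈ e.target := h3
      have hys : y ∈ e.source := by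
        rw [hyw]
        exact e.map_target hwt
      have hey : e y = w + c0 := by
        rw [hyw, e.right_inv hwt]
      have k1 : DifferentiableAt ℂ (fun z => chartAt C2 y (e.symm z)) (w + c0) := by
        rw [← hey]
        exact trans_differentiableAt hea (chart_mem_atlas C2 y) hys (mem_chart_source C2 y)
      have k2 : DifferentiableAt ℂ E0.symm x :=
        (hE0s _ h1).differentiableAt (E0.open_target.mem_nhds h1)
      have k3 : DifferentiableAt ℂ E0 w := (hE0d _ h2).differentiableAt (E0.open_source.mem_nhds h2)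
      have k4 : jacκ E.symm x = (jac e y).det * (fderiv ℂ E0.symm x).det := by
        have k5 : (fun z => chartAt C2 (E.symm x) (E.symm z)) =
            (fun z => chartAt C2 y (e.symm z)) ∘ (fun z => E0.symm z + c0) := rfl
        rw [jacκ, k5, fderiv_comp x k1 (k2.add_const c0), fderiv_add_const, jac_det_eq hea hys, hey]
        exact LinearMap.det_comp _ _
      have k6 : (fderiv ℂ E0 w).det * (fderiv ℂ E0.symm x).det = 1 := by
        have k7 : (E0 ∘ E0.symm) =ᶠ[𝓝 x] id := by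
          filter_upwards [E0.open_target.mem_nhds h1] with z hz using E0.right_inv hz
        have k8 := k7.fderiv_eq (𝕜 := ℂ)
        have k8' : fderiv ℂ (E0 ∘ E0.symm) x = (fderiv ℂ E0 w).comp (fderiv ℂ E0.symm x) :=
          fderiv_comp x k3 k2
        rw [k8', fderiv_id] at k8
        have k9 : (fderiv ℂ E0 w).det * (fderiv ℂ E0.symm x).det =
            ((fderiv ℂ E0 w).comp (fderiv ℂ E0.symm x)).det := (LinearMap.det_comp _ _).symm
        rw [k9, k8]
        exact LinearMap.det_id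
      have k10 := hHG w h2
      rw [E0.right_inv h1] at k10
      have k11 : v y * R.b y ^ R.μ = H x * x 1 ^ R.μ * (fderiv ℂ E0 w).det := k10
      have k12 : ‖(jac e y).det‖ * R.G y = ‖H x‖ * ‖x 1‖ ^ R.μ * ‖(fderiv ℂ E0 w).det‖ := by
        rw [← hyG, ← norm_mul, hyv, mul_comm, k11, norm_mul, norm_mul, norm_pow]
      have k13 : ‖(fderiv ℂ E0 w).det‖ * ‖(fderiv ℂ E0.symm x).det‖ = 1 := by
        rw [← norm_mul, k6, norm_one]
      rw [k4, norm_mul]
      calc R.G y * (‖(jac e y).det‖ * ‖(fderiv ℂ E0.symm x).det‖)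
          = (‖(jac e y).det‖ * R.G y) * ‖(fderiv ℂ E0.symm x).det‖ := by ring
        _ = ‖H x‖ * ‖x 1‖ ^ R.μ * (‖(fderiv ℂ E0 w).det‖ * ‖(fderiv ℂ E0.symm x).det‖) := by
            rw [k12]; ring
        _ = ‖H x‖ * ‖x 1‖ ^ R.μ := by rw [k13, mul_one]
    conn := R.conn }, rfl, rfl⟩

end Vale.Agent.P267.H759
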