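import Vale.Agent.P267.H399.Defs
import Vale.Agent.P267.Statement

/-!
# P267 / H759: interface of the leaf theorem (route E / LINE X of the endgame, case A)

`LeafIn M`: an open subset `Y` of a complex surface `M` (the punctured inner region), a holomorphic
function `zz` on `Y`, a local holomorphic `2`-form `ω` without zeros, given up to unimodular
constants (`G = |ω|` in preferred coordinates), and a collar `κ` (coordinates `(z, t)`, `zz = z ^ m`,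
`ω = η dz ∧ dt`, `η (0, t) = 1`, `η` close to `1`), up to which the fibres of `zz` are compact.

`LeafOut`: the fibres of `zz` are discs, and `(z, t)` extends to coordinates on all of `Y`.
-/

set_option linter.unusedVariables false

open scoped Manifold ContDiff Topology
open Set Filter

noncomputable section

namespace Vale.Agent.P267.H759

open Vale.Agent.P267.FL

/-- the cusp domain `|z| < c₀`, `0 < |t| < 8`, `|z| < δ |t| ^ μ` (`x 0 = z`, `x 1 = t`) -/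
def cusp (c₀ δ : ℝ) (μ : ℕ) : Set C2 :=
  {x | ‖x 0‖ < c₀ ∧ 0 < ‖x 1‖ ∧ ‖x 1‖ < 8 ∧ ‖x 0‖ < δ * ‖x 1‖ ^ μ}

/-- determinant of the derivative at `x` of `κ : C2 → M`, in the preferred coordinates at `κ x` -/
def jacκ {M : Type*} [TopologicalSpace M] [ChartedSpace C2 M] (κ : C2 → M) (x : C2) : ℂ :=
  (fderiv ℂ (fun y => chartAt C2 (κ x) (κ y)) x).det

/-- Input of the leaf theorem. -/
structure LeafIn (M : Type*) [TopologicalSpace M] [ChartedSpace C2 M] where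
  Y : Set M
  Y_open : IsOpen Y
  zz : M → ℂ
  zz_hol : ∀ y ∈ Y, MDifferentiableAt 𝓘(ℂ, C2) 𝓘(ℂ, ℂ) zz y
  m : ℕ
  m_pos : 0 < m
  c₀ : ℝ
  c₀_pos : 0 < c₀
  zz_lt : ∀ y ∈ Y, ‖zz y‖ < c₀ ^ m
  conn : IsPreconnected {y | y ∈ Y ∧ zz y ≠ 0}
  -- the absolute value of the `2`-form, in preferred coordinates
  G : M → ℝ
  G_pos : ∀ y ∈ Y, 0 < G y
  G_loc : ∀ y ∈ Y, ∃ V : Set M, IsOpen V ∧ y ∈ V ∧ ∃ σ : M → ℂ, HolOn 1 σ V ∧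
    ∀ x ∈ V, ‖σ x‖ = G x
  -- the collar
  μ : ℕ
  δ : ℝ
  δ_pos : 0 < δ
  c₀_lt : c₀ < δ * (1 / 8) ^ μ
  κ : C2 → M
  κi : M → C2
  κ_mem : ∀ x ∈ cusp c₀ δ μ, κ x ∈ Y
  κ_hol : MDifferentiableOn 𝓘(ℂ, C2) 𝓘(ℂ, C2) κ (cusp c₀ δ μ)
  κi_κ : ∀ x ∈ cusp c₀ δ μ, κi (κ x) = x
  κ_open : IsOpen (κ '' cusp c₀ δ μ)
  κi_hol : MDifferentiableOn 𝓘(ℂ, C2) 𝓘(ℂ, C2) κi (κ '' cusp c₀ δ μ)
  κ_zz : ∀ x ∈ cusp c₀ δ μ, zz (κ x) = x 0 ^ m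
  η : C2 → ℂ
  η_hol : DifferentiableOn ℂ η (cusp c₀ δ μ)
  η_close : ∀ x ∈ cusp c₀ δ μ, ‖η x - 1‖ ≤ 1 / 1000
  η_zero : ∀ x ∈ cusp c₀ δ μ, x 0 = 0 → η x = 1
  κ_G : ∀ x ∈ cusp c₀ δ μ, G (κ x) * ‖jacκ κ x‖ = ‖η x‖
  -- the zero fibre lies in the collar
  zero : ∀ y ∈ Y, zz y = 0 → y ∈ κ '' cusp c₀ δ μ
  -- the outer parts of the collar are closed in `Y`
  κ_closed : ∀ r : ℝ, 1 / 8 ≤ r → r < 8 → ∀ y ∈ Y,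
    y ∈ closure (κ '' {x | x ∈ cusp c₀ δ μ ∧ r ≤ ‖x 1‖}) →
      y ∈ κ '' {x | x ∈ cusp c₀ δ μ ∧ r ≤ ‖x 1‖}
  -- the fibres are compact up to the collar
  κ_compact : ∀ c : ℂ, c ≠ 0 → ∀ r : ℝ, r < 8 →
    IsCompact ({y | y ∈ Y ∧ zz y = c} \ κ '' {x | x ∈ cusp c₀ δ μ ∧ r < ‖x 1‖})

/-- the punctured bidisc on which the new coordinates live -/
def pbd (c₀ : ℝ) : Set C2 := {x | x ≠ 0 ∧ ‖x 0‖ < c₀ ∧ ‖x 1‖ < 5}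

/-- Output of the leaf theorem. -/
structure LeafOut {M : Type*} [TopologicalSpace M] [ChartedSpace C2 M] (D : LeafIn M) where
  Θ : C2 → M
  Θi : M → C2
  Θ_mem : ∀ x ∈ pbd D.c₀, Θ x ∈ D.Y
  Θ_hol : MDifferentiableOn 𝓘(ℂ, C2) 𝓘(ℂ, C2) Θ (pbd D.c₀)
  Θi_Θ : ∀ x ∈ pbd D.c₀, Θi (Θ x) = x
  Θ_open : IsOpen (Θ '' pbd D.c₀)
  Θi_hol : MDifferentiableOn 𝓘(ℂ, C2) 𝓘(ℂ, C2) Θi (Θ '' pbd D.c₀)
  Θ_zz : ∀ x ∈ pbd D.c₀, D.zz (Θ x) = x 0 ^ D.m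
  -- on the zero fibre `Θ = κ`
  Θ_zero : ∀ x ∈ pbd D.c₀, x 0 = 0 → Θ x = D.κ x
  -- on the collar `Θ` is close to `κ`
  Θ_κ : ∀ x ∈ pbd D.c₀, 1 / 4 ≤ ‖x 1‖ → ∃ x' ∈ cusp D.c₀ D.δ D.μ, x' 0 = x 0 ∧
    ‖x' 1 - x 1‖ ≤ 1 / 8 ∧ Θ x = D.κ x'
  κ_Θ : ∀ x ∈ pbd D.c₀, ∀ x' ∈ cusp D.c₀ D.δ D.μ, 3 / 8 ≤ ‖x' 1‖ → Θ x = D.κ x' →
    x' 0 = x 0 ∧ ‖x' 1 - x 1‖ ≤ 1 / 8
  -- everything is covered
  surj : ∀ y ∈ D.Y, y ∈ Θ '' pbd D.c₀ ∨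
    y ∈ D.κ '' {x | x ∈ cusp D.c₀ D.δ D.μ ∧ 9 / 2 < ‖x 1‖}

/-- **The leaf theorem.** -/
def LeafThm : Prop :=
  ∀ (M : Type) [TopologicalSpace M] [T2Space M] [ChartedSpace C2 M]
    [IsManifold 𝓘(ℂ, C2) ω M] (D : LeafIn M), Nonempty (LeafOut D)

end Vale.Agent.P267.H759
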