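import Vale.Agent.P267.H759.Inn
import Vale.Agent.P267.H175.Thin

/-!
# P267 / H759: from the normalised geometry to the input of the leaf theorem
-/

set_option linter.unusedVariables false
set_option linter.unusedSectionVars false

open scoped Manifold ContDiff Topology
open Set Filter

noncomputable section

namespace Vale.Agent.P267.H759

open Vale.Agent.P267.FL

/-! ### the change of coordinates -/

/-- `(z, t) ↦ (z / (r t) ^ μ, r t)` -/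
def psi (r : ℝ) (μ : ℕ) (x : C2) : C2 := ![x 0 / ((r : ℂ) * x 1) ^ μ, (r : ℂ) * x 1]

/-- `(s, t) ↦ (s t ^ μ, t / r)` -/
def psiI (r : ℝ) (μ : ℕ) (x : C2) : C2 := ![x 0 * x 1 ^ μ, x 1 / (r : ℂ)]

@[simp] theorem psi_zero (r : ℝ) (μ : ℕ) (x : C2) : psi r μ x 0 = x 0 / ((r : ℂ) * x 1) ^ μ := rfl
@[simp] theorem psi_one (r : ℝ) (μ : ℕ) (x : C2) : psi r μ x 1 = (r : ℂ) * x 1 := rfl
@[simp] theorem psiI_zero (r : ℝ) (μ : ℕ) (x : C2) : psiI r μ x 0 = x 0 * x 1 ^ μ := rfl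
@[simp] theorem psiI_one (r : ℝ) (μ : ℕ) (x : C2) : psiI r μ x 1 = x 1 / (r : ℂ) := rfl

theorem c2_ext {x y : C2} (h0 : x 0 = y 0) (h1 : x 1 = y 1) : x = y := by
  funext i
  fin_cases i
  · exact h0
  · exact h1

theorem psiI_psi {r : ℝ} (hr : 0 < r) {μ : ℕ} {x : C2} (hx : x 1 ≠ 0) :
    psiI r μ (psi r μ x) = x := by
  have hr' : (r : ℂ) ≠ 0 := by exact_mod_cast hr.ne'
  refine c2_ext ?_ ?_
  · simp only [psiI_zero, psi_zero, psi_one]
    field_simp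
  · simp only [psiI_one, psi_one]
    field_simp

theorem psi_psiI {r : ℝ} (hr : 0 < r) {μ : ℕ} {x : C2} (hx : x 1 ≠ 0) :
    psi r μ (psiI r μ x) = x := by
  have hr' : (r : ℂ) ≠ 0 := by exact_mod_cast hr.ne'
  have h : (r : ℂ) * (x 1 / (r : ℂ)) = x 1 := by field_simp
  refine c2_ext ?_ ?_
  · simp only [psiI_zero, psi_zero, psiI_one, h]
    field_simp
  · simp only [psiI_one, psi_one, h]

theorem differentiableAt_pi2 {f : C2 → C2} {x : C2} (h0 : DifferentiableAt ℂ (fun y => f y 0) x)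
    (h1 : DifferentiableAt ℂ (fun y => f y 1) x) : DifferentiableAt ℂ f x := by
  rw [differentiableAt_pi]
  intro i
  fin_cases i
  · exact h0
  · exact h1

theorem differentiableAt_coord (i : Fin 2) (x : C2) : DifferentiableAt ℂ (fun y : C2 => y i) x :=
  differentiableAt_apply i x

theorem psi_diff {r : ℝ} (hr : 0 < r) {μ : ℕ} {x : C2} (hx : x 1 ≠ 0) :
    DifferentiableAt ℂ (psi r μ) x := by
  have hr' : (r : ℂ) ≠ 0 := by exact_mod_cast hr.ne'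
  refine differentiableAt_pi2 ?_ ?_
  · simp only [psi_zero]
    fun_prop (disch := exact pow_ne_zero _ (mul_ne_zero hr' hx))
  · simp only [psi_one]
    fun_prop

theorem psiI_diff {r : ℝ} {μ : ℕ} {x : C2} : DifferentiableAt ℂ (psiI r μ) x := by
  refine differentiableAt_pi2 ?_ ?_
  · simp only [psiI_zero]
    fun_prop
  · simp only [psiI_one]
    have h : (fun y : C2 => y 1 / (r : ℂ)) = fun y => y 1 * (r : ℂ)⁻¹ := by
      funext y
      rw [div_eq_mul_inv]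
    rw [h]
    fun_prop

/-- the determinant of a `2 × 2` derivative in terms of its columns -/
theorem det_eq (L : C2 →L[ℂ] C2) : L.det =
    L (Pi.single 0 1) 0 * L (Pi.single 1 1) 1 - L (Pi.single 1 1) 0 * L (Pi.single 0 1) 1 := by
  rw [ContinuousLinearMap.det, ← LinearMap.det_toMatrix', Matrix.det_fin_two]
  simp [LinearMap.toMatrix'_apply]

theorem psi_det {r : ℝ} (hr : 0 < r) {μ : ℕ} {x : C2} (hx : x 1 ≠ 0) :
    (fderiv ℂ (psi r μ) x).det = r / ((r : ℂ) * x 1) ^ μ := by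
  have hr' : (r : ℂ) ≠ 0 := by exact_mod_cast hr.ne'
  have hd := psi_diff hr (μ := μ) hx
  have h0 : ∀ v : C2, (fderiv ℂ (psi r μ) x v) 0 = fderiv ℂ (fun y => psi r μ y 0) x v := by
    intro v
    rw [fderiv_apply hd]
    rfl
  have h1 : ∀ v : C2, (fderiv ℂ (psi r μ) x v) 1 = fderiv ℂ (fun y => psi r μ y 1) x v := by
    intro v
    rw [fderiv_apply hd]
    rfl
  have e1 : HasFDerivAt (fun y : C2 => psi r μ y 1)
      ((r : ℂ) • (ContinuousLinearMap.proj 1 : C2 →L[ℂ] ℂ)) x := by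
    simp only [psi_one]
    exact ((ContinuousLinearMap.proj 1 : C2 →L[ℂ] ℂ).hasFDerivAt).const_mul (r : ℂ)
  have e2 : HasFDerivAt (fun y : C2 => (((r : ℂ) * y 1) ^ μ)⁻¹)
      ((deriv (fun t : ℂ => (((r : ℂ) * t) ^ μ)⁻¹) (x 1)) •
        (ContinuousLinearMap.proj 1 : C2 →L[ℂ] ℂ)) x := by
    have k1 : DifferentiableAt ℂ (fun t : ℂ => (((r : ℂ) * t) ^ μ)⁻¹) (x 1) := by
      refine DifferentiableAt.inv ?_ (pow_ne_zero _ (mul_ne_zero hr' hx))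
      fun_prop
    have k3 : HasFDerivAt (fun y : C2 => y 1) (ContinuousLinearMap.proj 1 : C2 →L[ℂ] ℂ) x :=
      (ContinuousLinearMap.proj 1 : C2 →L[ℂ] ℂ).hasFDerivAt
    have k4 : HasDerivAt (fun t : ℂ => (((r : ℂ) * t) ^ μ)⁻¹)
        (deriv (fun t : ℂ => (((r : ℂ) * t) ^ μ)⁻¹) (x 1)) ((fun y : C2 => y 1) x) :=
      k1.hasDerivAt
    have k5 := HasDerivAt.comp_hasFDerivAt x k4 k3
    exact k5
  have e0 : HasFDerivAt (fun y : C2 => psi r μ y 0)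
      (x 0 • ((deriv (fun t : ℂ => (((r : ℂ) * t) ^ μ)⁻¹) (x 1)) •
        (ContinuousLinearMap.proj 1 : C2 →L[ℂ] ℂ)) +
        (((r : ℂ) * x 1) ^ μ)⁻¹ • (ContinuousLinearMap.proj 0 : C2 →L[ℂ] ℂ)) x := by
    have k2 : (fun y : C2 => psi r μ y 0) = fun y : C2 => y 0 * (((r : ℂ) * y 1) ^ μ)⁻¹ := by
      funext y
      rw [psi_zero, div_eq_mul_inv]
    rw [k2]
    exact ((ContinuousLinearMap.proj 0 : C2 →L[ℂ] ℂ).hasFDerivAt).mul e2
  rw [det_eq, h0, h0, h1, h1, e0.fderiv, e1.fderiv]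
  simp
  ring

/-- the set of the collar coordinates of the inner region -/
theorem psi_mem {ρ r c : ℝ} (hr : 0 < r) {μ : ℕ} {x : C2}
    (hx : x ∈ cusp c (ρ / 2 * r ^ μ) μ) :
    ‖psi r μ x 0‖ < ρ / 2 ∧ ‖psi r μ x 1‖ < 8 * r ∧ ‖psi r μ x 0‖ * ‖psi r μ x 1‖ ^ μ < c := by
  obtain ⟨h0, h1, h2, h3⟩ := hx
  have e1 : ‖psi r μ x 1‖ = r * ‖x 1‖ := by
    rw [psi_one, norm_mul, Complex.norm_real, Real.norm_of_nonneg hr.le]
  have e0 : ‖psi r μ x 0‖ = ‖x 0‖ / (r * ‖x 1‖) ^ μ := by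
    rw [psi_zero, norm_div, norm_pow, norm_mul, Complex.norm_real, Real.norm_of_nonneg hr.le]
  have hp : 0 < (r * ‖x 1‖) ^ μ := pow_pos (mul_pos hr h1) _
  refine ⟨?_, ?_, ?_⟩
  · rw [e0, div_lt_iff₀ hp, mul_pow, ← mul_assoc]
    exact h3
  · rw [e1]
    nlinarith
  · rw [e0, e1, div_mul_cancel₀ _ hp.ne']
    exact h0

theorem psiI_mem {ρ r c : ℝ} (hr : 0 < r) {μ : ℕ} {x : C2} (h0 : ‖x 0‖ < ρ / 2)
    (h1 : ‖x 1‖ < 8 * r) (h2 : ‖x 0‖ * ‖x 1‖ ^ μ < c) (h3 : x 1 ≠ 0) :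
    psiI r μ x ∈ cusp c (ρ / 2 * r ^ μ) μ := by
  have hx1 : 0 < ‖x 1‖ := norm_pos_iff.2 h3
  have e1 : ‖psiI r μ x 1‖ = ‖x 1‖ / r := by
    rw [psiI_one, norm_div, Complex.norm_real, Real.norm_of_nonneg hr.le]
  have e0 : ‖psiI r μ x 0‖ = ‖x 0‖ * ‖x 1‖ ^ μ := by
    rw [psiI_zero, norm_mul, norm_pow]
  refine ⟨?_, ?_, ?_, ?_⟩
  · rw [e0]; exact h2
  · rw [e1]; positivity
  · rw [e1, div_lt_iff₀ hr]; exact h1
  · rw [e0, e1, div_pow]
    have : ρ / 2 * r ^ μ * (‖x 1‖ ^ μ / r ^ μ) = ρ / 2 * ‖x 1‖ ^ μ := by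
      field_simp
    rw [this]
    gcongr

end Vale.Agent.P267.H759
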