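import Vale.Agent.P267.H759.In

/-!
# P267 / H759: from the normalised geometry to the input of the leaf theorem, 2
-/

set_option linter.unusedVariables false
set_option linter.unusedSectionVars false

open scoped Manifold ContDiff Topology
open Set Filter

noncomputable section

namespace Vale.Agent.P267.H759

open Vale.Agent.P267.FL

namespace NormA

variable {M : Type*} [TopologicalSpace M] [T2Space M] [ChartedSpace C2 M] {D : NormA M}

namespace Sel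

variable (S : D.Sel)

/-- the cusp domain of the collar -/
abbrev cus : Set C2 := cusp S.c (S.ρ / 2 * S.r ^ D.μ) D.μ

/-- the collar map -/
def kap (x : C2) : M := D.E.symm (psi S.r D.μ x)

/-- its inverse -/
def kapI (y : M) : C2 := psiI S.r D.μ (D.E y)

theorem cus_ne {x : C2} (hx : x ∈ S.cus) : x 1 ≠ 0 := norm_pos_iff.1 hx.2.1

theorem psi_box {x : C2} (hx : x ∈ S.cus) : psi S.r D.μ x ∈ S.box := psi_mem S.r_pos hx

theorem psi_ne {x : C2} (hx : x ∈ S.cus) : psi S.r D.μ x 1 ≠ 0 := by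
  have hr' : (S.r : ℂ) ≠ 0 := by exact_mod_cast S.r_pos.ne'
  rw [psi_one]
  exact mul_ne_zero hr' (S.cus_ne hx)

theorem psi_tgt {x : C2} (hx : x ∈ S.cus) : psi S.r D.μ x ∈ D.E.target := S.box_tgt (S.psi_box hx)

theorem kapI_kap {x : C2} (hx : x ∈ S.cus) : S.kapI (S.kap x) = x := by
  rw [kapI, kap, D.E.right_inv (S.psi_tgt hx), psiI_psi S.r_pos (S.cus_ne hx)]

theorem psiI_cus {y : C2} (hy : y ∈ S.box) (h : y 1 ≠ 0) : psiI S.r D.μ y ∈ S.cus :=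
  psiI_mem S.r_pos hy.1 hy.2.1 hy.2.2 h

theorem kap_psiI {y : C2} (h : y 1 ≠ 0) : S.kap (psiI S.r D.μ y) = D.E.symm y := by
  rw [kap, psi_psiI S.r_pos h]

theorem norm_psiI_one (y : C2) : ‖psiI S.r D.μ y 1‖ = ‖y 1‖ / S.r := by
  rw [psiI_one, norm_div, Complex.norm_real, Real.norm_of_nonneg S.r_pos.le]

theorem norm_psi_one (x : C2) : ‖psi S.r D.μ x 1‖ = S.r * ‖x 1‖ := by
  rw [psi_one, norm_mul, Complex.norm_real, Real.norm_of_nonneg S.r_pos.le]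

/-- images of parts of the collar -/
theorem image_kap (T : Set ℝ) : S.kap '' {x | x ∈ S.cus ∧ ‖x 1‖ ∈ T} =
    D.E.symm '' {y | y ∈ S.box ∧ y 1 ≠ 0 ∧ ‖y 1‖ / S.r ∈ T} := by
  apply Subset.antisymm
  · rintro _ ⟨x, ⟨hx, hxT⟩, rfl⟩
    refine ⟨psi S.r D.μ x, ⟨S.psi_box hx, S.psi_ne hx, ?_⟩, rfl⟩
    rw [norm_psi_one, mul_div_cancel_left₀ _ S.r_pos.ne']
    exact hxT
  · rintro _ ⟨y, ⟨hy, hy1, hyT⟩, rfl⟩
    exact ⟨psiI S.r D.μ y, ⟨S.psiI_cus hy hy1, by rw [norm_psiI_one]; exact hyT⟩, S.kap_psiI hy1⟩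

theorem isOpen_kap {T : Set ℝ} (hT : IsOpen T) : IsOpen (S.kap '' {x | x ∈ S.cus ∧ ‖x 1‖ ∈ T}) := by
  rw [image_kap]
  refine isOpen_im ?_ fun y hy => S.box_tgt hy.1
  have h1 : IsOpen {y : C2 | y 1 ≠ 0} := isOpen_ne_fun (by fun_prop) (by fun_prop)
  have h2 : IsOpen {y : C2 | ‖y 1‖ / S.r ∈ T} :=
    hT.preimage (f := fun y : C2 => ‖y 1‖ / S.r) (by fun_prop)
  exact S.isOpen_box.inter (h1.inter h2)

theorem image_cus : S.kap '' S.cus = S.kap '' {x | x ∈ S.cus ∧ ‖x 1‖ ∈ (univ : Set ℝ)} := by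
  congr 1
  ext x
  simp

theorem isOpen_kap_cus : IsOpen (S.kap '' S.cus) := by
  rw [image_cus]
  exact S.isOpen_kap isOpen_univ

theorem symm_mem_Z {x : C2} (hx : x ∈ D.E.target) : D.E.symm x ∈ D.Z ↔ x 1 = 0 := D.E_Z x hx

/-- the inner region without `Z` -/
def Y : Set M := S.Nin \ D.Z

theorem isOpen_Y : IsOpen S.Y := S.isOpen_Nin.sdiff D.Z_closed

theorem kap_Y {x : C2} (hx : x ∈ S.cus) : S.kap x ∈ S.Y := by
  refine ⟨S.box_Nin (S.psi_box hx), ?_⟩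
  rw [kap, symm_mem_Z (S.psi_tgt hx)]
  exact S.psi_ne hx

theorem kap_zz {x : C2} (hx : x ∈ S.cus) : D.zz (S.kap x) = x 0 ^ D.m := by
  have h := S.cus_ne hx
  have hr' : (S.r : ℂ) ≠ 0 := by exact_mod_cast S.r_pos.ne'
  rw [kap, D.E_zz _ (S.psi_tgt hx), psi_zero, psi_one, div_mul_cancel₀]
  exact pow_ne_zero _ (mul_ne_zero hr' h)

theorem mem_kap_of_zero {y : M} (hy : y ∈ S.Y) (h0 : D.zz y = 0) : y ∈ S.kap '' S.cus := by
  have hN := S.Nin_N0 hy.1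
  rcases (D.zz_zero y (S.N0_W hN)).1 h0 with h | h
  · exact absurd h hy.2
  · obtain ⟨x, h1, h2, rfl⟩ := S.ε_C y h hN.1.le
    have hxc : x ∈ cpd S.ρ := ⟨h1.le, by have := S.ρ_pos; linarith⟩
    have hxt := S.ρ_tgt hxc
    have hx0 : x 0 = 0 := (D.E_C x hxt).1 h
    have hx1 : x 1 ≠ 0 := fun h => hy.2 ((D.E_Z x hxt).2 h)
    have hb : x ∈ S.box := by
      refine ⟨?_, S.N0_lt hxc hN, ?_⟩
      · rw [hx0, norm_zero]
        have := S.ρ_pos
        positivity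
      · rw [hx0, norm_zero, zero_mul]
        exact S.c_pos
    exact ⟨psiI S.r D.μ x, S.psiI_cus hb hx1, S.kap_psiI hx1⟩

theorem kap_closed {r' : ℝ} (h1 : 1 / 8 ≤ r') (h2 : r' < 8) {y : M} (hy : y ∈ S.Y)
    (hc : y ∈ closure (S.kap '' {x | x ∈ S.cus ∧ r' ≤ ‖x 1‖})) :
    y ∈ S.kap '' {x | x ∈ S.cus ∧ r' ≤ ‖x 1‖} := by
  have hr := S.r_pos
  have hρ := S.ρ_pos
  have hlt := S.r_lt
  set K : Set C2 := {x | x ∈ cpd S.ρ ∧ S.r * r' ≤ ‖x 1‖} with hK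
  have hKc : IsCompact K := (isCompact_cpd S.ρ).inter_right
    (show IsClosed {x : C2 | S.r * r' ≤ ‖x 1‖} from isClosed_le (by fun_prop) (by fun_prop))
  have hKt : K ⊆ D.E.target := fun x hx => S.ρ_tgt hx.1
  have hsub : S.kap '' {x | x ∈ S.cus ∧ r' ≤ ‖x 1‖} ⊆ D.E.symm '' K := by
    rintro _ ⟨x, ⟨hx, hx1⟩, rfl⟩
    refine ⟨psi S.r D.μ x, ⟨S.box_cpd (S.psi_box hx), ?_⟩, rfl⟩
    rw [norm_psi_one]
    gcongr
  obtain ⟨x, hx, rfl⟩ := closure_minimal hsub (isClosed_im hKc hKt) hc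
  have hN := S.Nin_N0 hy.1
  have hx1 : ‖x 1‖ < 8 * S.r := S.N0_lt hx.1 hN
  have hxz := S.c_pow_lt (hKt hx) hN.2.1
  have hx2 : S.r * r' ≤ ‖x 1‖ := hx.2
  have hx8 : S.r / 8 ≤ ‖x 1‖ := by nlinarith
  have hx0 := S.lt_half hxz hx8
  have hxne : x 1 ≠ 0 := by
    rw [← norm_pos_iff]
    linarith
  refine ⟨psiI S.r D.μ x, ⟨S.psiI_cus ⟨hx0, hx1, hxz⟩ hxne, ?_⟩, S.kap_psiI hxne⟩
  rw [norm_psiI_one, le_div_iff₀ hr]
  linarith

theorem kap_compact {c : ℂ} (hc : c ≠ 0) {r' : ℝ} (hr' : r' < 8) :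
    IsCompact ({y | y ∈ S.Y ∧ D.zz y = c} \ S.kap '' {x | x ∈ S.cus ∧ r' < ‖x 1‖}) := by
  set T : Set M := {y | y ∈ S.Y ∧ D.zz y = c} \ S.kap '' {x | x ∈ S.cus ∧ r' < ‖x 1‖} with hT
  rcases T.eq_empty_or_nonempty with h0 | ⟨y₀, hy₀⟩
  · rw [h0]
    exact isCompact_empty
  have hcq : ‖c‖ < S.c ^ D.m := by
    have := (S.Nin_N0 hy₀.1.1.1).2.1
    rwa [hy₀.1.2] at this
  have hTN : T ⊆ S.Nin := fun y hy => hy.1.1.1
  have hopen : IsOpen (S.kap '' {x | x ∈ S.cus ∧ r' < ‖x 1‖}) := S.isOpen_kap (T := Ioi r') isOpen_Ioi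
  have hr := S.r_pos
  have hcl : IsClosed T := by
    refine isClosed_of_closure_subset fun y hy => ?_
    have hyN : y ∈ S.Nin := by
      refine S.mem_of_closure hTN hcq (fun z hz => (congrArg norm hz.1.2).le) (r' := S.r * r')
        (by nlinarith) ?_ hy
      intro x hx hx1 hxT
      have hxne : x 1 ≠ 0 := fun h => hxT.1.1.2 ((D.E_Z x (S.box_tgt hx)).2 h)
      refine hxT.2 ⟨psiI S.r D.μ x, ⟨S.psiI_cus hx hxne, ?_⟩, S.kap_psiI hxne⟩
      rw [norm_psiI_one, lt_div_iff₀ hr]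
      linarith
    have hz : D.zz y = c := by
      have h1 : ContinuousAt D.zz y := (D.zz_hol y (S.Nin_W hyN)).continuousAt
      exact (isClosed_singleton (x := c)).mem_of_frequently_of_tendsto
        ((mem_closure_iff_frequently.1 hy).mono fun z hz => hz.1.2) h1
    refine ⟨⟨⟨hyN, fun hyZ => ?_⟩, hz⟩, fun hyk => ?_⟩
    · exact hc (hz.symm.trans ((D.zz_zero y (S.Nin_W hyN)).2 (Or.inl hyZ)))
    · obtain ⟨w, hw1, hw2⟩ := mem_closure_iff_nhds.1 hy _ (hopen.mem_nhds hyk)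
      exact hw2.2 hw1
  obtain ⟨a, ha⟩ := D.zz_in ‖c‖ (norm_pos_iff.2 hc)
  refine (D.f_proper a S.b).of_isClosed_subset hcl fun y hy => ⟨?_, ?_⟩
  · by_contra hcon
    have h1 := ha y (not_le.1 hcon)
    rw [hy.1.2] at h1
    exact lt_irrefl _ h1
  · exact S.ε_b y (S.Nin_N0 (hTN hy)).1.le

section man

variable [IsManifold 𝓘(ℂ, C2) ω M]

theorem kap_hol {x : C2} (hx : x ∈ S.cus) : MDifferentiableAt 𝓘(ℂ, C2) 𝓘(ℂ, C2) S.kap x := by
  have h1 : MDifferentiableAt 𝓘(ℂ, C2) 𝓘(ℂ, C2) D.E.symm (psi S.r D.μ x) :=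
    (D.E_symm_hol _ (S.psi_tgt hx)).mdifferentiableAt (D.E.open_target.mem_nhds (S.psi_tgt hx))
  have h2 : MDifferentiableAt 𝓘(ℂ, C2) 𝓘(ℂ, C2) (psi S.r D.μ) x :=
    (psi_diff S.r_pos (S.cus_ne hx)).mdifferentiableAt
  exact h1.comp x h2

theorem kapI_hol {y : M} (hy : y ∈ D.E.source) : MDifferentiableAt 𝓘(ℂ, C2) 𝓘(ℂ, C2) S.kapI y := by
  have h1 : MDifferentiableAt 𝓘(ℂ, C2) 𝓘(ℂ, C2) D.E y :=
    (D.E_hol _ hy).mdifferentiableAt (D.E.open_source.mem_nhds hy)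
  have h2 : MDifferentiableAt 𝓘(ℂ, C2) 𝓘(ℂ, C2) (psiI S.r D.μ) (D.E y) :=
    psiI_diff.mdifferentiableAt
  exact h2.comp y h1

theorem chart_symm_diff {z : C2} (hz : z ∈ D.E.target) :
    DifferentiableAt ℂ (fun w => chartAt C2 (D.E.symm z) (D.E.symm w)) z := by
  have h1 : MDifferentiableAt 𝓘(ℂ, C2) 𝓘(ℂ, C2) D.E.symm z :=
    (D.E_symm_hol _ hz).mdifferentiableAt (D.E.open_target.mem_nhds hz)
  have h2 : MDifferentiableAt 𝓘(ℂ, C2) 𝓘(ℂ, C2) (chartAt C2 (D.E.symm z)) (D.E.symm z) :=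
    mdifferentiableAt_atlas (chart_mem_atlas C2 _) (mem_chart_source C2 _)
  exact (h2.comp z h1).differentiableAt

theorem jac_kap {x : C2} (hx : x ∈ S.cus) :
    jacκ S.kap x = jacκ D.E.symm (psi S.r D.μ x) * (S.r / ((S.r : ℂ) * x 1) ^ D.μ) := by
  have h1 := chart_symm_diff (S.psi_tgt hx)
  have h2 := psi_diff S.r_pos (μ := D.μ) (S.cus_ne hx)
  rw [← psi_det S.r_pos (S.cus_ne hx)]
  have h3 : (fun y => chartAt C2 (S.kap x) (S.kap y)) =
      (fun w => chartAt C2 (D.E.symm (psi S.r D.μ x)) (D.E.symm w)) ∘ psi S.r D.μ := rfl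
  rw [jacκ, h3, fderiv_comp x h1 h2, jacκ]
  exact LinearMap.det_comp _ _

/-- **The input of the leaf theorem.** -/
def leafIn : LeafIn M where
  Y := S.Y
  Y_open := S.isOpen_Y
  zz := D.zz
  zz_hol := fun y hy => D.zz_hol y (S.Nin_W hy.1)
  m := D.m
  m_pos := D.m_pos
  c₀ := S.c
  c₀_pos := S.c_pos
  zz_lt := fun y hy => (S.Nin_N0 hy.1).2.1
  conn := by
    have h1 : {y | y ∈ S.Y ∧ D.zz y ≠ 0} = {y | y ∈ S.Nin ∧ D.zz y ≠ 0} := by
      ext y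
      constructor
      · rintro ⟨h1, h2⟩
        exact ⟨h1.1, h2⟩
      · rintro ⟨h1, h2⟩
        exact ⟨⟨h1, fun h => h2 ((D.zz_zero y (S.Nin_W h1)).2 (Or.inl h))⟩, h2⟩
    rw [h1]
    refine H175.isPreconnected_ne_zero (E := C2) S.isOpen_Nin S.Nin_pre
      (fun y hy => D.zz_hol y (S.Nin_W hy)) S.p0_Nin ?_
    -- `zz` is not locally zero at `p0`
    intro hcon
    have h2 : ∀ᶠ x in 𝓝 (0 : C2), D.zz (D.E.symm x) = 0 := by
      have h3 : ContinuousAt D.E.symm (0 : C2) := D.E.continuousAt_symm D.E_zero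
      exact (h3.eventually hcon).mono fun x hx => not_not.1 hx
    have h4 : ∀ᶠ x in 𝓝 (0 : C2), x ∈ D.E.target := D.E.open_target.mem_nhds D.E_zero
    obtain ⟨e, he, hb⟩ := Metric.eventually_nhds_iff_ball.1 (h2.and h4)
    have h5 : (fun _ => (e / 2 : ℂ)) ∈ Metric.ball (0 : C2) e := by
      rw [mem_ball_zero_iff, pi_norm_lt_iff he]
      intro i
      rw [norm_div, Complex.norm_real, Real.norm_of_nonneg he.le]
      simp
      linarith
    obtain ⟨h6, h7⟩ := hb _ h5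
    rw [D.E_zz _ h7] at h6
    have h8 : (e / 2 : ℂ) ≠ 0 := by
      have : (e : ℂ) ≠ 0 := by exact_mod_cast he.ne'
      exact div_ne_zero this two_ne_zero
    exact (pow_ne_zero _ (mul_ne_zero h8 (pow_ne_zero _ h8))) h6
  G := fun y => D.G y / S.r
  G_pos := fun y hy => div_pos (D.G_pos y (S.Nin_W hy.1) hy.2) S.r_pos
  G_loc := fun y hy => by
    obtain ⟨V, hV, hyV, σ, hσ, h⟩ := D.G_loc y (S.Nin_W hy.1) hy.2
    refine ⟨V, hV, hyV, fun x => (S.r : ℂ)⁻¹ * σ x, ?_, fun x hx => ?_⟩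
    · intro e he
      have h1 : loc0 1 e (fun x => (S.r : ℂ)⁻¹ * σ x) = fun z => (S.r : ℂ)⁻¹ * loc0 1 e σ z := by
        funext z
        simp only [loc0, smul_eq_mul]
        ring
      rw [h1]
      exact (hσ e he).const_mul _
    · rw [norm_mul, norm_inv, Complex.norm_real, Real.norm_of_nonneg S.r_pos.le, h x hx]
      field_simp
  μ := D.μ
  δ := S.ρ / 2 * S.r ^ D.μ
  δ_pos := by
    have h1 := S.ρ_pos
    have h2 := S.r_pos
    positivity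
  c₀_lt := S.c_lt
  κ := S.kap
  κi := S.kapI
  κ_mem := fun x hx => S.kap_Y hx
  κ_hol := fun x hx => (S.kap_hol hx).mdifferentiableWithinAt
  κi_κ := fun x hx => S.kapI_kap hx
  κ_open := S.isOpen_kap_cus
  κi_hol := by
    rintro _ ⟨x, hx, rfl⟩
    exact (S.kapI_hol (D.E.map_target (S.psi_tgt hx))).mdifferentiableWithinAt
  κ_zz := fun x hx => S.kap_zz hx
  η := fun x => D.H (psi S.r D.μ x)
  η_hol := fun x hx => by
    have h1 : DifferentiableAt ℂ D.H (psi S.r D.μ x) :=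
      (D.H_hol _ (S.psi_tgt hx)).differentiableAt (D.E.open_target.mem_nhds (S.psi_tgt hx))
    exact (h1.comp x (psi_diff S.r_pos (S.cus_ne hx))).differentiableWithinAt
  η_close := fun x hx => S.ρ_H _ (S.box_cpd (S.psi_box hx))
  η_zero := fun x hx h0 => by
    refine D.H_one _ (S.psi_tgt hx) ?_
    rw [psi_zero, h0, zero_div]
  κ_G := fun x hx => by
    have h1 := D.E_G _ (S.psi_tgt hx) (S.psi_ne hx)
    have hr := S.r_pos
    have hx1 : 0 < ‖x 1‖ := hx.2.1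
    rw [S.jac_kap hx, norm_mul, norm_div, norm_pow, norm_mul, Complex.norm_real,
      Real.norm_of_nonneg hr.le]
    rw [norm_psi_one] at h1
    have h2 : D.G (S.kap x) = D.G (D.E.symm (psi S.r D.μ x)) := rfl
    rw [h2]
    have h3 : 0 < (S.r * ‖x 1‖) ^ D.μ := by positivity
    calc D.G (D.E.symm (psi S.r D.μ x)) / S.r *
          (‖jacκ D.E.symm (psi S.r D.μ x)‖ * (S.r / (S.r * ‖x 1‖) ^ D.μ))
        = (D.G (D.E.symm (psi S.r D.μ x)) * ‖jacκ D.E.symm (psi S.r D.μ x)‖) /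
          (S.r * ‖x 1‖) ^ D.μ := by
          field_simp
      _ = ‖D.H (psi S.r D.μ x)‖ := by
          rw [h1, mul_div_cancel_right₀ _ h3.ne']
  zero := fun y hy h0 => S.mem_kap_of_zero hy h0
  κ_closed := fun r' h1 h2 y hy hc => S.kap_closed h1 h2 hy hc
  κ_compact := fun c hc r' hr' => S.kap_compact hc hr'

end man

end Sel

end NormA

end Vale.Agent.P267.H759
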