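import Vale.Agent.P267.H759.Sel

/-!
# P267 / H759: the inner region
-/

set_option linter.unusedVariables false
set_option linter.unusedSectionVars false

open scoped Manifold ContDiff Topology
open Set Filter

noncomputable section

namespace Vale.Agent.P267.H759

open Vale.Agent.P267.FL

namespace NormA

variable {M : Type*} [TopologicalSpace M] [T2Space M] [ChartedSpace C2 M] {D : NormA M}

namespace Sel

variable (S : D.Sel)

/-- the removed outer part of the collar -/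
def F8 : Set C2 := {x | ‖x 0‖ ≤ S.ρ ∧ 8 * S.r ≤ ‖x 1‖ ∧ ‖x 1‖ ≤ S.ρ}

theorem F8_cpd {x : C2} (hx : x ∈ S.F8) : x ∈ cpd S.ρ := ⟨hx.1, hx.2.2⟩

theorem isCompact_F8 : IsCompact S.F8 := by
  have h : IsClosed {x : C2 | 8 * S.r ≤ ‖x 1‖} := isClosed_le (by fun_prop) (by fun_prop)
  have h2 := (isCompact_cpd S.ρ).inter_right h
  refine h2.of_isClosed_subset ?_ fun x hx => ⟨⟨hx.1, hx.2.2⟩, hx.2.1⟩
  have : S.F8 = cpd S.ρ ∩ {x : C2 | 8 * S.r ≤ ‖x 1‖} := by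
    ext x
    simp only [F8, cpd, mem_ofPred_eq, mem_inter_iff]
    tauto
  rw [this]
  exact h2.isClosed

theorem isClosed_im {K : Set C2} (hK : IsCompact K) (hKt : K ⊆ D.E.target) :
    IsClosed (D.E.symm '' K) :=
  (hK.image_of_continuousOn (D.E.continuousOn_symm.mono hKt)).isClosed

theorem isOpen_im {U : Set C2} (hU : IsOpen U) (hUt : U ⊆ D.E.target) :
    IsOpen (D.E.symm '' U) := D.E.isOpen_image_symm_of_subset_target hU hUt

theorem isClosed_F8 : IsClosed (D.E.symm '' S.F8) :=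
  isClosed_im S.isCompact_F8 fun _ hx => S.ρ_tgt (S.F8_cpd hx)

/-- the inner region, before taking the component -/
def N0 : Set M := {y | D.A y < S.ε ∧ ‖D.zz y‖ < S.c ^ D.m ∧ y ∉ D.E.symm '' S.F8}

theorem N0_W {y : M} (hy : y ∈ S.N0) : y ∈ D.W := S.ε_W y hy.1.le

theorem isOpen_N0 : IsOpen S.N0 := by
  have h1 : IsOpen {y | D.A y < S.ε} := isOpen_lt D.A_cont continuous_const
  have h2 : IsOpen ({y | D.A y < S.ε} ∩ D.zz ⁻¹' Metric.ball 0 (S.c ^ D.m)) := by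
    refine ContinuousOn.isOpen_inter_preimage (D.zz_cont.mono fun y hy => S.ε_W y (le_of_lt hy)) h1
      Metric.isOpen_ball
  have h3 := h2.sdiff S.isClosed_F8
  convert h3 using 1
  ext y
  simp only [N0, mem_ofPred_eq, Set.mem_sdiff, mem_inter_iff, mem_preimage, mem_ball_zero_iff, and_assoc]

theorem symm_inj {x x' : C2} (hx : x ∈ D.E.target) (hx' : x' ∈ D.E.target)
    (h : D.E.symm x = D.E.symm x') : x = x' := D.E.symm.injOn hx hx' h

/-- in the polydisc, points of `N0` have `|t| < 8 r` -/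
theorem N0_lt {x : C2} (hx : x ∈ cpd S.ρ) (h : D.E.symm x ∈ S.N0) : ‖x 1‖ < 8 * S.r := by
  by_contra hcon
  exact h.2.2 ⟨x, ⟨hx.1, not_lt.1 hcon, hx.2⟩, rfl⟩

theorem c_pow_lt {z : C2} (hz : z ∈ D.E.target) (h : ‖D.zz (D.E.symm z)‖ < S.c ^ D.m) :
    ‖z 0‖ * ‖z 1‖ ^ D.μ < S.c := by
  rw [D.E_zz z hz, norm_pow, norm_mul, norm_pow] at h
  exact lt_of_pow_lt_pow_left₀ _ S.c_pos.le h

/-- `|s| < ρ / 2` for `|t| ≥ r / 8` -/
theorem lt_half {z : C2} (h : ‖z 0‖ * ‖z 1‖ ^ D.μ < S.c) (h1 : S.r / 8 ≤ ‖z 1‖) :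
    ‖z 0‖ < S.ρ / 2 := by
  by_contra hcon
  have h2 : S.ρ / 2 ≤ ‖z 0‖ := not_lt.1 hcon
  have h3 : (S.r / 8) ^ D.μ ≤ ‖z 1‖ ^ D.μ := by
    have := S.r_pos
    gcongr
  have h4 : S.ρ / 2 * (S.r / 8) ^ D.μ ≤ ‖z 0‖ * ‖z 1‖ ^ D.μ := by
    have := S.r_pos
    have := S.ρ_pos
    gcongr
  have h5 := S.c_lt
  have h6 : S.ρ / 2 * S.r ^ D.μ * (1 / 8) ^ D.μ = S.ρ / 2 * (S.r / 8) ^ D.μ := by
    rw [mul_assoc, ← mul_pow]
    congr 2
    ring
  rw [h6] at h5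
  linarith

/-- the part of the polydisc lying in `N0` -/
def box : Set C2 := {x | ‖x 0‖ < S.ρ / 2 ∧ ‖x 1‖ < 8 * S.r ∧ ‖x 0‖ * ‖x 1‖ ^ D.μ < S.c}

theorem box_cpd {x : C2} (hx : x ∈ S.box) : x ∈ cpd S.ρ := by
  have h1 := hx.1
  have h2 := hx.2.1
  have h3 := S.r_lt
  have h4 := S.ρ_pos
  exact ⟨by linarith, by linarith⟩

theorem box_tgt {x : C2} (hx : x ∈ S.box) : x ∈ D.E.target := S.ρ_tgt (S.box_cpd hx)

theorem isOpen_box : IsOpen S.box := by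
  have h1 : IsOpen {x : C2 | ‖x 0‖ < S.ρ / 2} := isOpen_lt (by fun_prop) (by fun_prop)
  have h2 : IsOpen {x : C2 | ‖x 1‖ < 8 * S.r} := isOpen_lt (by fun_prop) (by fun_prop)
  have h3 : IsOpen {x : C2 | ‖x 0‖ * ‖x 1‖ ^ D.μ < S.c} := isOpen_lt (by fun_prop) (by fun_prop)
  exact h1.inter (h2.inter h3)

theorem zero_box : (0 : C2) ∈ S.box := by
  have h1 := S.ρ_pos
  have h2 := S.r_pos
  have h3 := S.c_pos
  refine ⟨?_, ?_, ?_⟩
  · simp only [Pi.zero_apply, norm_zero]; positivity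
  · simp only [Pi.zero_apply, norm_zero]; positivity
  · simpa using h3

theorem zz_lt_of {x : C2} (hx : x ∈ D.E.target) (h : ‖x 0‖ * ‖x 1‖ ^ D.μ < S.c) :
    ‖D.zz (D.E.symm x)‖ < S.c ^ D.m := by
  rw [D.E_zz x hx, norm_pow, norm_mul, norm_pow]
  exact pow_lt_pow_left₀ h (by positivity) D.m_pos.ne'

theorem box_N0 {x : C2} (hx : x ∈ S.box) : D.E.symm x ∈ S.N0 := by
  refine ⟨S.r_A x (S.box_cpd hx) hx.2.1.le, S.zz_lt_of (S.box_tgt hx) hx.2.2, ?_⟩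
  rintro ⟨y, hy, hyx⟩
  have h := symm_inj (S.ρ_tgt (S.F8_cpd hy)) (S.box_tgt hx) hyx
  rw [h] at hy
  have h1 := hx.2.1
  have h2 := hy.2.1
  linarith

theorem box_pre : IsPreconnected S.box := by
  have hstar : StarConvex ℝ (0 : C2) S.box := by
    rw [starConvex_zero_iff]
    intro x hx a ha0 ha1
    have e : ∀ i, ‖(a • x) i‖ ≤ ‖x i‖ := fun i => by
      rw [Pi.smul_apply, norm_smul, Real.norm_of_nonneg ha0]
      exact mul_le_of_le_one_left (norm_nonneg _) ha1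
    refine ⟨(e 0).trans_lt hx.1, (e 1).trans_lt hx.2.1, lt_of_le_of_lt ?_ hx.2.2⟩
    have e0 := e 0
    have e1 := e 1
    gcongr
  exact (hstar.isPathConnected S.zero_box).isConnected.isPreconnected

/-- the crossing point -/
def p0 (D : NormA M) : M := D.E.symm 0

theorem p0_Z : p0 D ∈ D.Z := (D.E_Z 0 D.E_zero).2 rfl

theorem p0_N0 : p0 D ∈ S.N0 := S.box_N0 S.zero_box

/-- the inner region -/
def Nin : Set M := connectedComponentIn S.N0 (p0 D)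

theorem Nin_N0 : S.Nin ⊆ S.N0 := connectedComponentIn_subset _ _

theorem p0_Nin : p0 D ∈ S.Nin := mem_connectedComponentIn S.p0_N0

theorem Nin_pre : IsPreconnected S.Nin := isPreconnected_connectedComponentIn

theorem isOpen_Nin : IsOpen S.Nin := by
  have : LocallyConnectedSpace M := ChartedSpace.locallyConnectedSpace C2 M
  exact S.isOpen_N0.connectedComponentIn

theorem sub_Nin {Q : Set M} (hQ : IsPreconnected Q) (hp : p0 D ∈ Q) (hQN : Q ⊆ S.N0) :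
    Q ⊆ S.Nin := hQ.subset_connectedComponentIn hp hQN

theorem box_Nin {x : C2} (hx : x ∈ S.box) : D.E.symm x ∈ S.Nin := by
  refine S.sub_Nin (Q := D.E.symm '' S.box) ?_ ⟨0, S.zero_box, rfl⟩ ?_ ⟨x, hx, rfl⟩
  · exact S.box_pre.image _ (D.E.continuousOn_symm.mono fun y hy => S.box_tgt hy)
  · rintro _ ⟨y, hy, rfl⟩
    exact S.box_N0 hy

theorem Nin_W {y : M} (hy : y ∈ S.Nin) : y ∈ D.W := S.N0_W (S.Nin_N0 hy)

/-- `Nin` is closed in `N0` -/
theorem closure_Nin {y : M} (hy : y ∈ closure S.Nin) (h : y ∈ S.N0) : y ∈ S.Nin := by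
  have h1 : IsPreconnected (insert y S.Nin) :=
    S.Nin_pre.subset_closure (subset_insert _ _) (insert_subset hy subset_closure)
  refine S.sub_Nin h1 (mem_insert_of_mem _ S.p0_Nin) ?_ (mem_insert _ _)
  exact insert_subset h S.Nin_N0

/-- far inside, everything lies in `N0` -/
theorem exists_in_N0 : ∃ a, ∀ x, D.f x < a → x ∈ S.N0 := by
  obtain ⟨a₁, h₁⟩ := D.A_in S.ε S.ε_pos
  obtain ⟨a₂, h₂⟩ := D.zz_in (S.c ^ D.m) (pow_pos S.c_pos _)
  have hK : IsCompact (D.E.symm '' S.F8) :=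
    S.isCompact_F8.image_of_continuousOn (D.E.continuousOn_symm.mono
      fun _ hx => S.ρ_tgt (S.F8_cpd hx))
  obtain ⟨a₃, h₃⟩ : ∃ a₃, ∀ x ∈ D.E.symm '' S.F8, a₃ ≤ D.f x := by
    obtain ⟨a₃, h₃⟩ := (hK.image D.f_cont).bddBelow
    exact ⟨a₃, fun x hx => h₃ ⟨x, hx, rfl⟩⟩
  refine ⟨min a₁ (min a₂ a₃), fun x hx => ⟨h₁ x ?_, h₂ x ?_, fun hxF => ?_⟩⟩
  · exact hx.trans_le (min_le_left _ _)
  · exact hx.trans_le ((min_le_right _ _).trans (min_le_left _ _))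
  · have h4 := h₃ x hxF
    have h5 := hx.trans_le ((min_le_right _ _).trans (min_le_right _ _))
    linarith

theorem Z_N0 : D.Z ⊆ S.N0 := by
  intro x hx
  have h0 : D.A x = 0 := (D.A_zero x).2 hx
  refine ⟨by rw [h0]; exact S.ε_pos, ?_, ?_⟩
  · have : D.zz x = 0 := (D.zz_zero x (D.Z_W hx)).2 (Or.inl hx)
    rw [this, norm_zero]
    exact pow_pos S.c_pos _
  · rintro ⟨y, hy, rfl⟩
    rw [D.E_Z y (S.ρ_tgt (S.F8_cpd hy))] at hx
    have h1 := hy.2.1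
    rw [hx, norm_zero] at h1
    have := S.r_pos
    linarith

/-- `Z` and a neighbourhood of the inner end lie in `Nin` -/
theorem exists_in_Nin : D.Z ⊆ S.Nin ∧ ∃ a, ∀ x, D.f x < a → x ∈ S.Nin := by
  obtain ⟨a, ha⟩ := S.exists_in_N0
  obtain ⟨b, Q, hQ, hbQ, hQa⟩ := D.conn a
  have h1 : Q ⊆ S.Nin := by
    refine S.sub_Nin hQ (hbQ (Or.inl p0_Z)) fun x hx => ?_
    rcases hQa hx with h | h
    · exact S.Z_N0 h
    · exact ha x h
  exact ⟨fun x hx => h1 (hbQ (Or.inl hx)), b, fun x hx => h1 (hbQ (Or.inr hx))⟩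

theorem Z_Nin : D.Z ⊆ S.Nin := S.exists_in_Nin.1

/-- `zz → 0` as `A → 0` -/
theorem zz_small {η : ℝ} (hη : 0 < η) : ∃ δ > 0, δ ≤ S.ε ∧ ∀ y, D.A y < δ → ‖D.zz y‖ < η := by
  obtain ⟨a, ha⟩ := D.zz_in η hη
  have h0 : IsClosed {y | D.A y ≤ S.ε} := isClosed_le D.A_cont continuous_const
  have hcl : IsClosed ({y | D.A y ≤ S.ε} ∩ (fun y => ‖D.zz y‖) ⁻¹' Ici η) :=
    ContinuousOn.preimage_isClosed_of_isClosed
      ((D.zz_cont.mono fun y hy => S.ε_W y hy).norm) h0 isClosed_Ici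
  obtain ⟨δ, hδ, h⟩ := D.exists_A_lt hcl (a := a) (by
    rw [Set.disjoint_left]
    rintro y ⟨-, hy2⟩ hyZ
    have : D.zz y = 0 := (D.zz_zero y (D.Z_W hyZ)).2 (Or.inl hyZ)
    rw [mem_preimage, this, norm_zero] at hy2
    have : η ≤ 0 := hy2
    linarith) (by
    rintro y ⟨-, hy2⟩
    by_contra hcon
    have h1 := ha y (not_le.1 hcon)
    have h2 : η ≤ ‖D.zz y‖ := hy2
    linarith)
  refine ⟨min δ S.ε, lt_min hδ S.ε_pos, min_le_right _ _, fun y hy => ?_⟩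
  by_contra hcon
  have h3 := h y ⟨(hy.trans_le (min_le_right _ _)).le, not_lt.1 hcon⟩
  have h4 := hy.trans_le (min_le_left _ _)
  linarith

/-- where `A` is small, one is in `Nin` -/
theorem exists_lt_Nin : ∃ δ > 0, ∀ y, D.A y < δ → y ∈ S.Nin := by
  obtain ⟨δ₁, hδ₁, hδε, h₁⟩ := S.zz_small (pow_pos S.c_pos D.m)
  obtain ⟨δ₂, hδ₂, h₂⟩ : ∃ δ > 0, ∀ y ∈ D.E.symm '' S.F8, δ < D.A y := by
    refine exists_lt_of_compact (S.isCompact_F8.image_of_continuousOn (D.E.continuousOn_symm.mono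
      fun _ hx => S.ρ_tgt (S.F8_cpd hx))) D.A_cont.continuousOn ?_
    rintro _ ⟨x, hx, rfl⟩
    refine lt_of_le_of_ne (D.A_nonneg _) fun h => ?_
    have h1 := (D.E_Z x (S.ρ_tgt (S.F8_cpd hx))).1 ((D.A_zero _).1 h.symm)
    have h2 := hx.2.1
    rw [h1, norm_zero] at h2
    have := S.r_pos
    linarith
  obtain ⟨a, ha⟩ := S.exists_in_Nin.2
  have hcl : closure (S.N0 \ S.Nin) ∩ S.Nin = ∅ := by
    have h0 : Disjoint (S.N0 \ S.Nin) S.Nin := disjoint_sdiff_left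
    exact (h0.closure_left S.isOpen_Nin).inter_eq
  obtain ⟨δ₃, hδ₃, h₃⟩ := D.exists_A_lt (isClosed_closure (s := S.N0 \ S.Nin)) (a := a) (by
    rw [Set.disjoint_left]
    intro y hy hyZ
    have : y ∈ closure (S.N0 \ S.Nin) ∩ S.Nin := ⟨hy, S.Z_Nin hyZ⟩
    rw [hcl] at this
    exact this) (by
    have h : S.N0 \ S.Nin ⊆ {y | a ≤ D.f y} := by
      intro y hy
      by_contra hcon
      exact hy.2 (ha y (not_le.1 hcon))
    intro y hy
    exact closure_minimal h (isClosed_le continuous_const D.f_cont) hy)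
  refine ⟨min δ₁ (min δ₂ δ₃), lt_min hδ₁ (lt_min hδ₂ hδ₃), fun y hy => ?_⟩
  have hy1 := hy.trans_le (min_le_left _ _)
  have hy2 := hy.trans_le ((min_le_right _ _).trans (min_le_left _ _))
  have hy3 := hy.trans_le ((min_le_right _ _).trans (min_le_right _ _))
  have hN0 : y ∈ S.N0 := by
    refine ⟨by linarith, h₁ y hy1, fun h => ?_⟩
    have := h₂ y h
    linarith
  by_contra hcon
  have := h₃ y (subset_closure ⟨hN0, hcon⟩)
  linarith

/-- closedness: a subset of `Nin` which avoids the outer part of the collar -/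
theorem mem_of_closure {T : Set M} (hT : T ⊆ S.Nin) {q : ℝ} (hq : q < S.c ^ D.m)
    (hTq : ∀ y ∈ T, ‖D.zz y‖ ≤ q) {r' : ℝ} (hr' : r' < 8 * S.r)
    (hTr : ∀ x ∈ S.box, r' < ‖x 1‖ → D.E.symm x ∉ T) {y : M} (hy : y ∈ closure T) :
    y ∈ S.Nin := by
  have hA : D.A y ≤ S.ε := by
    have h : T ⊆ {y | D.A y ≤ S.ε} := fun z hz => (S.Nin_N0 (hT hz)).1.le
    exact closure_minimal h (isClosed_le D.A_cont continuous_const) hy
  have hW : y ∈ D.W := S.ε_W y hA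
  have hz : ‖D.zz y‖ ≤ q := by
    have h1 : ContinuousAt (fun y => ‖D.zz y‖) y := (D.zz_hol y hW).continuousAt.norm
    exact isClosed_Iic.mem_of_frequently_of_tendsto
      ((mem_closure_iff_frequently.1 hy).mono fun z hz => hTq z hz) h1
  -- not in the closed outer part
  have hF : y ∉ D.E.symm '' S.F8 := by
    rintro ⟨x, hx, rfl⟩
    have hxt := S.ρ_tgt (S.F8_cpd hx)
    have h1 : ‖x 1‖ < S.ρ / 2 := S.c_K x (S.F8_cpd hx) hA (hz.trans hq.le)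
    have h2 : ‖x 0‖ * ‖x 1‖ ^ D.μ < S.c := S.c_pow_lt hxt (hz.trans_lt hq)
    have h3 : ‖x 0‖ < S.ρ / 2 := S.lt_half h2 (by
      have := hx.2.1
      have := S.r_pos
      linarith)
    -- a neighbourhood of `x`
    have hU : {z : C2 | ‖z 0‖ < S.ρ / 2 ∧ ‖z 1‖ < S.ρ / 2 ∧ r' < ‖z 1‖} ∈ 𝓝 x := by
      have h1' : IsOpen {x : C2 | ‖x 0‖ < S.ρ / 2} := isOpen_lt (by fun_prop) (by fun_prop)
      have h2' : IsOpen {x : C2 | ‖x 1‖ < S.ρ / 2} := isOpen_lt (by fun_prop) (by fun_prop)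
      have h3' : IsOpen {x : C2 | r' < ‖x 1‖} := isOpen_lt (by fun_prop) (by fun_prop)
      exact (h1'.inter (h2'.inter h3')).mem_nhds ⟨h3, h1, hr'.trans_le hx.2.1⟩
    have hV : D.E.symm '' {z : C2 | ‖z 0‖ < S.ρ / 2 ∧ ‖z 1‖ < S.ρ / 2 ∧ r' < ‖z 1‖} ∈
        𝓝 (D.E.symm x) := by
      have := D.E.symm.image_mem_nhds (x := x) hxt hU
      exact this
    obtain ⟨w, ⟨z, hz1, rfl⟩, hwT⟩ := mem_closure_iff_nhds.1 hy _ hV
    have hzc : z ∈ cpd S.ρ := by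
      have := S.ρ_pos
      exact ⟨by linarith [hz1.1], by linarith [hz1.2.1]⟩
    have hzN := S.Nin_N0 (hT hwT)
    exact hTr z ⟨hz1.1, S.N0_lt hzc hzN, S.c_pow_lt (S.ρ_tgt hzc) hzN.2.1⟩ hz1.2.2 hwT
  have hA' : D.A y < S.ε := by
    refine lt_of_le_of_ne hA fun h => hF ?_
    obtain ⟨x, h1, h2, h3, h4⟩ := S.c_A y h (hz.trans hq.le)
    exact ⟨x, ⟨h1.le, h2.le, by have := S.ρ_pos; linarith⟩, h4⟩
  exact S.closure_Nin (closure_mono hT hy) ⟨hA', hz.trans_lt hq, hF⟩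

end Sel

end NormA

end Vale.Agent.P267.H759
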