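import Vale.Agent.P267.H759.LeafIface

/-!
# P267 / H759: from the normalised geometry of case A to the input of the leaf theorem
-/

set_option linter.unusedVariables false
set_option linter.unusedSectionVars false

open scoped Manifold ContDiff Topology
open Set Filter

noncomputable section

namespace Vale.Agent.P267.H759

open Vale.Agent.P267.FL

/-- Geometry of case A near `Z ∪ inner end`, with normalised coordinates `(s, t) = (x 0, x 1)` at the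
crossing point of `C` and `Z`. -/
structure NormA (M : Type*) [TopologicalSpace M] [ChartedSpace C2 M] where
  f : M → ℝ
  f_cont : Continuous f
  f_proper : ∀ a b, IsCompact (f ⁻¹' Icc a b)
  Z : Set M
  Z_closed : IsClosed Z
  C : Set M
  C_closed : IsClosed C
  C_below : ∃ a, ∀ x ∈ C, a ≤ f x
  -- the norm of the section `α_i`
  A : M → ℝ
  A_cont : Continuous A
  A_nonneg : ∀ x, 0 ≤ A x
  A_zero : ∀ x, A x = 0 ↔ x ∈ Z
  A_in : ∀ ε > 0, ∃ a, ∀ x, f x < a → A x < ε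
  A_out : ∃ b a₀, 0 < a₀ ∧ ∀ x, b < f x → a₀ ≤ A x
  -- the exact holomorphic function
  W : Set M
  W_open : IsOpen W
  Z_W : Z ⊆ W
  W_in : ∃ a, ∀ x, f x < a → x ∈ W
  zz : M → ℂ
  zz_hol : ∀ x ∈ W, MDifferentiableAt 𝓘(ℂ, C2) 𝓘(ℂ, ℂ) zz x
  zz_in : ∀ ε > 0, ∃ a, ∀ x, f x < a → ‖zz x‖ < ε
  zz_zero : ∀ x ∈ W, zz x = 0 ↔ (x ∈ Z ∨ x ∈ C)
  m : ℕ
  m_pos : 0 < m
  μ : ℕ
  -- the crossing
  E : OpenPartialHomeomorph M C2
  E_hol : MDifferentiableOn 𝓘(ℂ, C2) 𝓘(ℂ, C2) E E.source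
  E_symm_hol : MDifferentiableOn 𝓘(ℂ, C2) 𝓘(ℂ, C2) E.symm E.target
  E_W : E.source ⊆ W
  E_zero : (0 : C2) ∈ E.target
  E_Z : ∀ x ∈ E.target, E.symm x ∈ Z ↔ x 1 = 0
  E_C : ∀ x ∈ E.target, E.symm x ∈ C ↔ x 0 = 0
  cross : ∀ x ∈ Z, x ∈ C → x = E.symm 0
  E_zz : ∀ x ∈ E.target, zz (E.symm x) = (x 0 * x 1 ^ μ) ^ m
  -- the absolute value of the two-form
  G : M → ℝ
  G_pos : ∀ x ∈ W, x ∉ Z → 0 < G x
  G_loc : ∀ x ∈ W, x ∉ Z → ∃ V : Set M, IsOpen V ∧ x ∈ V ∧ ∃ σ : M → ℂ, HolOn 1 σ V ∧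
    ∀ y ∈ V, ‖σ y‖ = G y
  H : C2 → ℂ
  H_hol : DifferentiableOn ℂ H E.target
  H_one : ∀ x ∈ E.target, x 0 = 0 → H x = 1
  E_G : ∀ x ∈ E.target, x 1 ≠ 0 → G (E.symm x) * ‖jacκ E.symm x‖ = ‖H x‖ * ‖x 1‖ ^ μ
  -- connectedness of `Z ∪ inner end`
  conn : ∀ a, ∃ b, ∃ Q : Set M, IsPreconnected Q ∧ Z ∪ {x | f x < b} ⊆ Q ∧ Q ⊆ Z ∪ {x | f x < a}

namespace NormA

variable {M : Type*} [TopologicalSpace M] [T2Space M] [ChartedSpace C2 M] (D : NormA M)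

/-- a closed set disjoint from `Z` and bounded below -/
theorem exists_A_lt {F : Set M} (hF : IsClosed F) (hFZ : Disjoint F D.Z) {a : ℝ}
    (ha : ∀ x ∈ F, a ≤ D.f x) : ∃ ε > 0, ∀ x ∈ F, ε < D.A x := by
  obtain ⟨b, a₀, ha₀, hb⟩ := D.A_out
  have hK : IsCompact (D.f ⁻¹' Icc a b ∩ F) := (D.f_proper a b).inter_right hF
  by_cases hne : (D.f ⁻¹' Icc a b ∩ F).Nonempty
  · obtain ⟨x₀, hx₀, hmin⟩ := hK.exists_isMinOn hne D.A_cont.continuousOn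
    have hx₀A : 0 < D.A x₀ := by
      refine lt_of_le_of_ne (D.A_nonneg x₀) fun h => ?_
      exact (Set.disjoint_left.1 hFZ) hx₀.2 ((D.A_zero x₀).1 h.symm)
    refine ⟨min (D.A x₀) a₀ / 2, by positivity, fun x hx => ?_⟩
    have hmp : 0 < min (D.A x₀) a₀ := lt_min hx₀A ha₀
    by_cases hxb : D.f x ≤ b
    · have h1 : D.A x₀ ≤ D.A x := hmin ⟨⟨ha x hx, hxb⟩, hx⟩
      have h2 := min_le_left (D.A x₀) a₀
      linarith
    · have h1 := hb x (lt_of_not_ge hxb)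
      have h2 := min_le_right (D.A x₀) a₀
      linarith
  · refine ⟨a₀ / 2, by positivity, fun x hx => ?_⟩
    have hxb : b < D.f x := by
      by_contra hcon
      push Not at hcon
      exact hne ⟨x, ⟨ha x hx, hcon⟩, hx⟩
    have h1 := hb x hxb
    linarith

/-- a closed set bounded below on which `A ≤ ε` is compact -/
theorem isCompact_of {F : Set M} (hF : IsClosed F) {a ε : ℝ} (ha : ∀ x ∈ F, a ≤ D.f x)
    {b : ℝ} (hb : ∀ x ∈ F, D.f x ≤ b) : IsCompact F :=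
  (D.f_proper a b).of_isClosed_subset hF fun x hx => ⟨ha x hx, hb x hx⟩

end NormA

/-- closed polydisc -/
def cpd (ρ : ℝ) : Set C2 := {x | ‖x 0‖ ≤ ρ ∧ ‖x 1‖ ≤ ρ}

theorem isCompact_cpd (ρ : ℝ) : IsCompact (cpd ρ) := by
  refine Metric.isCompact_of_isClosed_isBounded ?_ ?_
  · have h0 : IsClosed {x : C2 | ‖x 0‖ ≤ ρ} := isClosed_le (by fun_prop) (by fun_prop)
    have h1 : IsClosed {x : C2 | ‖x 1‖ ≤ ρ} := isClosed_le (by fun_prop) (by fun_prop)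
    exact h0.inter h1
  · refine (Metric.isBounded_closedBall (x := (0 : C2)) (r := ρ)).subset ?_
    rintro x ⟨h0, h1⟩
    have hρ : 0 ≤ ρ := (norm_nonneg _).trans h0
    rw [mem_closedBall_zero_iff, pi_norm_le_iff_of_nonneg hρ]
    intro i
    fin_cases i
    · exact h0
    · exact h1

end Vale.Agent.P267.H759
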