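import Vale.Agent.P267.H759.RawA
import Vale.Agent.P267.H759.In
import Vale.Agent.P267.H399.Calc
import Vale.Agent.P267.H209.Quot

/-!
# P267 / H759: from the raw geometry to the normalised geometry
-/

set_option linter.unusedVariables false
set_option linter.unusedSectionVars false

open scoped Manifold ContDiff Topology
open Set Filter

noncomputable section

namespace Vale.Agent.P267.H759

open Vale.Agent.P267.FL

variable {M : Type} [TopologicalSpace M] [ChartedSpace C2 M] [IsManifold 𝓘(ℂ, C2) ω M]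

theorem jac_det_eq {e : Ch M} (he : e ∈ atlas C2 M) {x : M} (hx : x ∈ e.source) :
    (jac e x).det = (fderiv ℂ (fun z => chartAt C2 x (e.symm z)) (e x)).det := by
  rw [jac, Matrix.det_fin_two, det_eq, jacM_apply he (chart_mem_atlas C2 x) hx (mem_chart_source C2 x),
    jacM_apply he (chart_mem_atlas C2 x) hx (mem_chart_source C2 x),
    jacM_apply he (chart_mem_atlas C2 x) hx (mem_chart_source C2 x),
    jacM_apply he (chart_mem_atlas C2 x) hx (mem_chart_source C2 x)]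

/-- products of functions with independent differentials are not locally zero -/
theorem frequently_ne {p : M} {a b : M → ℂ}
    (ha : ∀ᶠ x in 𝓝 p, MDifferentiableAt 𝓘(ℂ, C2) 𝓘(ℂ, ℂ) a x)
    (hb : ∀ᶠ x in 𝓝 p, MDifferentiableAt 𝓘(ℂ, C2) 𝓘(ℂ, ℂ) b x)
    (ha0 : (mfderiv 𝓘(ℂ, C2) 𝓘(ℂ, ℂ) a p : C2 →L[ℂ] ℂ) ≠ 0)
    (hb0 : (mfderiv 𝓘(ℂ, C2) 𝓘(ℂ, ℂ) b p : C2 →L[ℂ] ℂ) ≠ 0) :
    ∃ᶠ x in 𝓝 p, a x ≠ 0 ∧ b x ≠ 0 := by
  have hM1 : IsManifold 𝓘(ℂ, C2) 1 M := IsManifold.of_le (n := ω) le_top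
  have hLC : LocallyConnectedSpace M := ChartedSpace.locallyConnectedSpace C2 M
  have key : ∀ {g : M → ℂ}, (mfderiv 𝓘(ℂ, C2) 𝓘(ℂ, ℂ) g p : C2 →L[ℂ] ℂ) ≠ 0 →
      ¬ ∀ᶠ x in 𝓝 p, g x = 0 := by
    intro g hg h
    have h1 : g =ᶠ[𝓝 p] fun _ => 0 := h
    apply hg
    have h2 := h1.mfderiv_eq (I := 𝓘(ℂ, C2)) (I' := 𝓘(ℂ, ℂ))
    have h3 : mfderiv 𝓘(ℂ, C2) 𝓘(ℂ, ℂ) (fun _ : M => (0 : ℂ)) p = 0 := mfderiv_const
    rw [h3] at h2
    exact h2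
  obtain ⟨O, hO, hOo, hpO⟩ := eventually_nhds_iff.1 (ha.and hb)
  rw [frequently_iff]
  intro N hN
  obtain ⟨V, hVO, hVo, hpV, hVc⟩ := locallyConnectedSpace_iff_subsets_isOpen_isConnected.1 hLC p
    (O ∩ N) (inter_mem (hOo.mem_nhds hpO) hN)
  have ha' : ∀ x ∈ V, ¬ ∀ᶠ y in 𝓝 x, a y = 0 := fun x hx h =>
    key ha0 (H175.eq_zero_of_preconnected (E := C2) hVo hVc.isPreconnected
      (fun y hy => (hO y (hVO hy).1).1) hx h p hpV)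
  have hb' : ∀ x ∈ V, ¬ ∀ᶠ y in 𝓝 x, b y = 0 := fun x hx h =>
    key hb0 (H175.eq_zero_of_preconnected (E := C2) hVo hVc.isPreconnected
      (fun y hy => (hO y (hVO hy).1).2) hx h p hpV)
  have h1 : ∃ᶠ y in 𝓝 p, a y ≠ 0 := fun h => ha' p hpV (h.mono fun y hy => not_not.1 hy)
  obtain ⟨q, hq, hqV⟩ := (h1.and_eventually (hVo.mem_nhds hpV)).exists
  have h2 : ∃ᶠ y in 𝓝 q, b y ≠ 0 := fun h => hb' q hqV (h.mono fun y hy => not_not.1 hy)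
  have h3 : ∀ᶠ y in 𝓝 q, a y ≠ 0 :=
    (hO q (hVO hqV).1).1.continuousAt.eventually_ne hq
  obtain ⟨q', hq1, hq2, hq3⟩ := (h2.and_eventually (h3.and (hVo.mem_nhds hqV))).exists
  exact ⟨q', (hVO hq3).2, hq2, hq1⟩

/-- extraction of a unit -/
theorem exists_unit [T2Space M] {p : M} {F P : M → ℂ} {k : M → ℝ}
    (hF : ∀ᶠ x in 𝓝 p, MDifferentiableAt 𝓘(ℂ, C2) 𝓘(ℂ, ℂ) F x)
    (hP : ∀ᶠ x in 𝓝 p, MDifferentiableAt 𝓘(ℂ, C2) 𝓘(ℂ, ℂ) P x)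
    (hne : ∃ᶠ x in 𝓝 p, P x ≠ 0) (hk : ContinuousAt k p) (hk0 : 0 < k p)
    (hFP : ∀ᶠ x in 𝓝 p, ‖F x‖ = k x * ‖P x‖) :
    ∃ u : M → ℂ, (∀ᶠ x in 𝓝 p, MDifferentiableAt 𝓘(ℂ, C2) 𝓘(ℂ, ℂ) u x) ∧ u p ≠ 0 ∧
      ∀ᶠ x in 𝓝 p, F x = P x * u x := by
  obtain ⟨O, hO, hOo, hpO⟩ := eventually_nhds_iff.1 (hF.and hP)
  have hkb : ∀ᶠ x in 𝓝 p, k x ≤ k p + 1 :=
    (hk.eventually (gt_mem_nhds (lt_add_one (k p)))).mono fun x hx => le_of_lt hx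
  have hb : ∀ᶠ x in 𝓝 p, ‖F x‖ ≤ (k p + 1) * ‖P x‖ := by
    filter_upwards [hkb, hFP] with x h1 h2
    rw [h2]
    gcongr
  obtain ⟨V, hVo, hpV, hVO, u, hu, huF⟩ := H209.quot_local (U := O) hOo (x := P) (y := F)
    (fun x hx => (hO x hx).2.mdifferentiableWithinAt)
    (fun x hx => (hO x hx).1.mdifferentiableWithinAt) hpO hne hb
  have hu' : ∀ x ∈ V, MDifferentiableAt 𝓘(ℂ, C2) 𝓘(ℂ, ℂ) u x := fun x hx =>
    (hu x hx).mdifferentiableAt (hVo.mem_nhds hx)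
  refine ⟨u, ?_, ?_, ?_⟩
  · filter_upwards [hVo.mem_nhds hpV] with x hx using hu' x hx
  · have h1 : ContinuousAt (fun x => ‖u x‖ - k x) p := (hu' p hpV).continuousAt.norm.sub hk
    have h2 : ∃ᶠ x in 𝓝 p, ‖u x‖ - k x ∈ ({0} : Set ℝ) := by
      refine (hne.and_eventually (hFP.and (hVo.mem_nhds hpV))).mono ?_
      rintro x ⟨hx1, hx2, hx3⟩
      rw [huF x hx3, norm_mul] at hx2
      have h3 : ‖P x‖ ≠ 0 := norm_ne_zero_iff.2 hx1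
      have h4 : ‖u x‖ = k x := by
        apply mul_left_cancel₀ h3
        linarith
      simp [h4]
    have h5 : ‖u p‖ - k p = 0 := (isClosed_singleton (x := (0 : ℝ))).mem_of_frequently_of_tendsto h2 h1
    rw [← norm_pos_iff]
    linarith
  · filter_upwards [hVo.mem_nhds hpV] with x hx using huF x hx

end Vale.Agent.P267.H759
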