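import Vale.Agent.P267.H759.NormA

/-!
# P267 / H759: choice of the constants in case A
-/

set_option linter.unusedVariables false
set_option linter.unusedSectionVars false

open scoped Manifold ContDiff Topology
open Set Filter

noncomputable section

namespace Vale.Agent.P267.H759

open Vale.Agent.P267.FL

theorem exists_lt_of_compact {X : Type*} [TopologicalSpace X] {K : Set X} (hK : IsCompact K)
    {g : X → ℝ} (hg : ContinuousOn g K) (hpos : ∀ x ∈ K, 0 < g x) :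
    ∃ ε > 0, ∀ x ∈ K, ε < g x := by
  by_cases hne : K.Nonempty
  · obtain ⟨x₀, hx₀, hmin⟩ := hK.exists_isMinOn hne hg
    have h0 := hpos x₀ hx₀
    refine ⟨g x₀ / 2, by positivity, fun x hx => ?_⟩
    have h1 : g x₀ ≤ g x := hmin hx
    linarith
  · exact ⟨1, one_pos, fun x hx => absurd ⟨x, hx⟩ hne⟩

theorem mem_cpd_iff {ρ : ℝ} (hρ : 0 ≤ ρ) {x : C2} : x ∈ cpd ρ ↔ ‖x‖ ≤ ρ := by
  rw [pi_norm_le_iff_of_nonneg hρ]
  constructor
  · rintro ⟨h0, h1⟩ i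
    fin_cases i
    · exact h0
    · exact h1
  · intro h
    exact ⟨h 0, h 1⟩

namespace NormA

variable {M : Type*} [TopologicalSpace M] [T2Space M] [ChartedSpace C2 M] (D : NormA M)

/-- the constants -/
structure Sel where
  ρ : ℝ
  ρ_pos : 0 < ρ
  ρ_tgt : cpd ρ ⊆ D.E.target
  ρ_H : ∀ x ∈ cpd ρ, ‖D.H x - 1‖ ≤ 1 / 1000
  ε : ℝ
  ε_pos : 0 < ε
  ε_W : ∀ x, D.A x ≤ ε → x ∈ D.W
  b : ℝ
  ε_b : ∀ x, D.A x ≤ ε → D.f x ≤ b
  ε_C : ∀ x ∈ D.C, D.A x ≤ ε → ∃ y : C2, ‖y 0‖ < ρ ∧ ‖y 1‖ < ρ / 2 ∧ D.E.symm y = x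
  r : ℝ
  r_pos : 0 < r
  r_lt : 8 * r < ρ / 2
  r_A : ∀ x ∈ cpd ρ, ‖x 1‖ ≤ 8 * r → D.A (D.E.symm x) < ε
  c : ℝ
  c_pos : 0 < c
  c_lt : c < ρ / 2 * r ^ D.μ * (1 / 8) ^ D.μ
  c_A : ∀ x, D.A x = ε → ‖D.zz x‖ ≤ c ^ D.m → ∃ y : C2, ‖y 0‖ < ρ ∧ 8 * r < ‖y 1‖ ∧
    ‖y 1‖ < ρ / 2 ∧ D.E.symm y = x
  c_K : ∀ x ∈ cpd ρ, D.A (D.E.symm x) ≤ ε → ‖D.zz (D.E.symm x)‖ ≤ c ^ D.m → ‖x 1‖ < ρ / 2

theorem zz_cont : ContinuousOn D.zz D.W := fun x hx => (D.zz_hol x hx).continuousAt.continuousWithinAt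

theorem exists_sel : Nonempty D.Sel := by
  -- the radius of the polydisc
  obtain ⟨ρ, hρ, hρt, hρH⟩ : ∃ ρ > 0, cpd ρ ⊆ D.E.target ∧ ∀ x ∈ cpd ρ, ‖D.H x - 1‖ ≤ 1 / 1000 := by
    have h1 : D.E.target ∈ 𝓝 (0 : C2) := D.E.open_target.mem_nhds D.E_zero
    have h2 : ContinuousAt D.H 0 := (D.H_hol.continuousOn).continuousAt h1
    have h3 : D.H 0 = 1 := D.H_one 0 D.E_zero rfl
    have h4 : ∀ᶠ x in 𝓝 (0 : C2), ‖D.H x - 1‖ < 1 / 1000 := by
      have h5 : ContinuousAt (fun x => ‖D.H x - 1‖) 0 := (h2.sub continuousAt_const).norm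
      refine h5.eventually_lt continuousAt_const ?_
      simp [h3]
    obtain ⟨ρ, hρ, hb⟩ := Metric.nhds_basis_closedBall.mem_iff.1 (Filter.inter_mem h1 h4)
    refine ⟨ρ, hρ, fun x hx => ?_, fun x hx => ?_⟩
    · exact (hb (mem_closedBall_zero_iff.2 ((mem_cpd_iff hρ.le).1 hx))).1
    · have h6 : ‖D.H x - 1‖ < 1 / 1000 :=
        (hb (mem_closedBall_zero_iff.2 ((mem_cpd_iff hρ.le).1 hx))).2
      exact h6.le
  -- the polydisc `|s| < ρ, |t| < ρ / 2` in `M`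
  set P : Set C2 := {y | ‖y 0‖ < ρ ∧ ‖y 1‖ < ρ / 2} with hP
  have hPo : IsOpen P := by
    have h0 : IsOpen {x : C2 | ‖x 0‖ < ρ} := isOpen_lt (by fun_prop) (by fun_prop)
    have h1 : IsOpen {x : C2 | ‖x 1‖ < ρ / 2} := isOpen_lt (by fun_prop) (by fun_prop)
    exact h0.inter h1
  have hPt : P ⊆ D.E.target := fun y hy => hρt ⟨hy.1.le, by have := hy.2; linarith⟩
  have hPM : IsOpen (D.E.symm '' P) := D.E.isOpen_image_symm_of_subset_target hPo hPt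
  -- `ε`
  obtain ⟨b, a₀, ha₀, hb⟩ := D.A_out
  obtain ⟨ε₁, hε₁, h₁⟩ : ∃ ε > 0, ∀ x ∈ D.Wᶜ, ε < D.A x := by
    obtain ⟨a, ha⟩ := D.W_in
    refine D.exists_A_lt D.W_open.isClosed_compl ?_ (a := a) ?_
    · rw [Set.disjoint_compl_left_iff_subset]
      exact D.Z_W
    · intro x hx
      by_contra hcon
      exact hx (ha x (not_le.1 hcon))
  obtain ⟨ε₂, hε₂, h₂⟩ : ∃ ε > 0, ∀ x ∈ D.C \ D.E.symm '' P, ε < D.A x := by
    obtain ⟨a, ha⟩ := D.C_below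
    refine D.exists_A_lt (D.C_closed.sdiff hPM) ?_ (a := a) fun x hx => ha x hx.1
    rw [Set.disjoint_left]
    rintro x ⟨hxC, hxP⟩ hxZ
    refine hxP ⟨0, ⟨?_, ?_⟩, (D.cross x hxZ hxC).symm⟩
    · simpa using hρ
    · simpa using hρ
  set ε := min (min ε₁ ε₂) (a₀ / 2) with hε
  have hε0 : 0 < ε := lt_min (lt_min hε₁ hε₂) (by positivity)
  have hεW : ∀ x, D.A x ≤ ε → x ∈ D.W := by
    intro x hx
    by_contra hcon
    have h := h₁ x hcon
    have h' : ε ≤ ε₁ := (min_le_left _ _).trans (min_le_left _ _)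
    linarith
  have hεb : ∀ x, D.A x ≤ ε → D.f x ≤ b := by
    intro x hx
    by_contra hcon
    have h := hb x (not_le.1 hcon)
    have h' : ε ≤ a₀ / 2 := min_le_right _ _
    linarith
  have hεC : ∀ x ∈ D.C, D.A x ≤ ε → ∃ y : C2, ‖y 0‖ < ρ ∧ ‖y 1‖ < ρ / 2 ∧ D.E.symm y = x := by
    intro x hxC hx
    by_contra hcon
    have h : x ∉ D.E.symm '' P := by
      rintro ⟨y, hy, hyx⟩
      exact hcon ⟨y, hy.1, hy.2, hyx⟩
    have h3 := h₂ x ⟨hxC, h⟩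
    have h' : ε ≤ ε₂ := (min_le_left _ _).trans (min_le_right _ _)
    linarith
  -- `r`
  have hKc : IsCompact (cpd ρ) := isCompact_cpd ρ
  have hsymm : ContinuousOn D.E.symm (cpd ρ) := D.E.continuousOn_symm.mono hρt
  have hAs : ContinuousOn (fun x => D.A (D.E.symm x)) (cpd ρ) := D.A_cont.comp_continuousOn hsymm
  obtain ⟨r, hr, hr8, hrA⟩ : ∃ r > 0, 8 * r < ρ / 2 ∧ ∀ x ∈ cpd ρ, ‖x 1‖ ≤ 8 * r →
      D.A (D.E.symm x) < ε := by
    have hT : IsCompact (cpd ρ ∩ (fun x => D.A (D.E.symm x)) ⁻¹' Ici ε) :=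
      hKc.of_isClosed_subset (hAs.preimage_isClosed_of_isClosed hKc.isClosed isClosed_Ici)
        inter_subset_left
    obtain ⟨m, hm, hmT⟩ := exists_lt_of_compact (g := fun x : C2 => ‖x 1‖) hT
      (by fun_prop) (fun x hx => by
        rw [norm_pos_iff]
        intro h0
        have h1 : D.E.symm x ∈ D.Z := (D.E_Z x (hρt hx.1)).2 h0
        have h2 : D.A (D.E.symm x) = 0 := (D.A_zero _).2 h1
        have h3 : ε ≤ D.A (D.E.symm x) := hx.2
        linarith)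
    refine ⟨min (ρ / 17) (m / 8), lt_min (by positivity) (by positivity), ?_, ?_⟩
    · have := min_le_left (ρ / 17) (m / 8)
      linarith
    · intro x hx hx1
      by_contra hcon
      have h1 := hmT x ⟨hx, not_lt.1 hcon⟩
      have h2 := min_le_right (ρ / 17) (m / 8)
      linarith
  -- `c`
  obtain ⟨e₁, he₁, hc₁⟩ : ∃ e > 0, ∀ x ∈ {x | D.A x = ε} \ D.E.symm '' P, e < ‖D.zz x‖ := by
    obtain ⟨a, ha⟩ := D.A_in ε hε0
    have hcl : IsClosed ({x | D.A x = ε} \ D.E.symm '' P) :=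
      (isClosed_eq D.A_cont continuous_const).sdiff hPM
    have hco : IsCompact ({x | D.A x = ε} \ D.E.symm '' P) := by
      refine (D.f_proper a b).of_isClosed_subset hcl fun x hx => ⟨?_, ?_⟩
      · by_contra hcon
        have h1 := ha x (not_le.1 hcon)
        have h2 : D.A x = ε := hx.1
        linarith
      · exact hεb x (le_of_eq hx.1)
    refine exists_lt_of_compact hco ?_ ?_
    · exact (D.zz_cont.mono fun x hx => hεW x (le_of_eq hx.1)).norm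
    · rintro x ⟨hxA, hxP⟩
      rw [norm_pos_iff]
      intro h0
      rcases (D.zz_zero x (hεW x (le_of_eq hxA))).1 h0 with h | h
      · have h2 : D.A x = 0 := (D.A_zero _).2 h
        have h3 : D.A x = ε := hxA
        linarith
      · obtain ⟨y, h1, h2, h3⟩ := hεC x h (le_of_eq hxA)
        exact hxP ⟨y, ⟨h1, h2⟩, h3⟩
  obtain ⟨e₂, he₂, hc₂⟩ : ∃ e > 0, ∀ x ∈ cpd ρ ∩ (fun x => D.A (D.E.symm x)) ⁻¹' Iic ε ∩
      {x | ρ / 2 ≤ ‖x 1‖}, e < ‖D.zz (D.E.symm x)‖ := by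
    have hT : IsCompact (cpd ρ ∩ (fun x => D.A (D.E.symm x)) ⁻¹' Iic ε) :=
      hKc.of_isClosed_subset (hAs.preimage_isClosed_of_isClosed hKc.isClosed isClosed_Iic)
        inter_subset_left
    have hcl : IsClosed {x : C2 | ρ / 2 ≤ ‖x 1‖} := isClosed_le (by fun_prop) (by fun_prop)
    refine exists_lt_of_compact (hT.inter_right hcl) ?_ ?_
    · refine ContinuousOn.norm ?_
      refine D.zz_cont.comp (hsymm.mono fun x hx => hx.1.1) fun x hx => hεW _ hx.1.2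
    · rintro x ⟨⟨hx, hxA⟩, hx1⟩
      have hxA' : D.A (D.E.symm x) ≤ ε := hxA
      have hx1' : ρ / 2 ≤ ‖x 1‖ := hx1
      rw [norm_pos_iff]
      intro h0
      rcases (D.zz_zero _ (hεW _ hxA')).1 h0 with h | h
      · rw [D.E_Z x (hρt hx)] at h
        rw [h] at hx1'
        simp at hx1'
        linarith
      · obtain ⟨y, h1, h2, h3⟩ := hεC _ h hxA'
        have h4 : y = x := D.E.symm.injOn (hPt ⟨h1, h2⟩) (hρt hx) h3
        rw [h4] at h2
        linarith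
  have hq : 0 < ρ / 2 * r ^ D.μ * (1 / 8) ^ D.μ := by positivity
  obtain ⟨c, hc, hc1, hce₁, hce₂, hcq⟩ : ∃ c : ℝ, 0 < c ∧ c ≤ 1 ∧ c ≤ e₁ ∧ c ≤ e₂ ∧
      c < ρ / 2 * r ^ D.μ * (1 / 8) ^ D.μ := by
    refine ⟨min (min 1 (min e₁ e₂)) (ρ / 2 * r ^ D.μ * (1 / 8) ^ D.μ / 2), by positivity, ?_, ?_,
      ?_, ?_⟩
    · exact (min_le_left _ _).trans (min_le_left _ _)
    · exact (min_le_left _ _).trans ((min_le_right _ _).trans (min_le_left _ _))
    · exact (min_le_left _ _).trans ((min_le_right _ _).trans (min_le_right _ _))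
    · have := min_le_right (min 1 (min e₁ e₂)) (ρ / 2 * r ^ D.μ * (1 / 8) ^ D.μ / 2)
      linarith
  have hcm : c ^ D.m ≤ c := by
    have := pow_le_pow_of_le_one hc.le hc1 D.m_pos
    simpa using this
  exact ⟨{
    ρ := ρ
    ρ_pos := hρ
    ρ_tgt := hρt
    ρ_H := hρH
    ε := ε
    ε_pos := hε0
    ε_W := hεW
    b := b
    ε_b := hεb
    ε_C := hεC
    r := r
    r_pos := hr
    r_lt := hr8
    r_A := hrA
    c := c
    c_pos := hc
    c_lt := hcq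
    c_A := fun x hx hz => by
      have h1 : x ∈ D.E.symm '' P := by
        by_contra hcon
        have := hc₁ x ⟨hx, hcon⟩
        linarith
      obtain ⟨y, hy, rfl⟩ := h1
      refine ⟨y, hy.1, ?_, hy.2, rfl⟩
      by_contra hcon
      have h2 := hrA y ⟨hy.1.le, by have := hy.2; linarith⟩ (not_lt.1 hcon)
      linarith
    c_K := fun x hx hA hz => by
      by_contra hcon
      have := hc₂ x ⟨⟨hx, hA⟩, not_lt.1 hcon⟩
      linarith }⟩

end NormA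

end Vale.Agent.P267.H759
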